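/-
Row 258 (S0498).  Block [S8c] = combinatorial core of Sec. 8 (linearization.tex).  Architect: helper61.
File Lin.lean: DEFINITIONS for the rational linear algebra of Lemmas 8.2, 8.3 (heights, evaluation, `C_*`, gap (23), `K_rat`,
reachability).  The theorems are in Cramer.lean, Exc.lean, StabA.lean, Stab.lean.  (Mathlib only.)
The only `sorry` here, `s8c_ht_div`, belongs to LEAF P-S8c-EXC
(`Rat.num_div_eq_of_coprime`-free route: `Rat.divInt`/`Rat.den_dvd`, `Rat.num_dvd`: `den ∣ q`, `num ∣ p`; case `p = 0` separately).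

Notation of the paper: `D = D_*`, `Cs = C_*`, `R' = R_*^{ht}`, `L_h = 6^h`, `E_h = A0^(h+1)`,
`K = K_rat` (a rational subspace of `ℚ^ι`, `ι` = coordinates of `Θ = (θ_v, ϑ)`), `emb : ℚ^κ → ℚ^ι` the embedding
`w ↦ (0,w)` of the horizontal coordinates (ANY linear map is allowed below), `K_B = K.comap emb`.
-/
import Mathlib

set_option autoImplicit false

namespace Claimed.Agent.R258

open scoped BigOperators
open Classical

noncomputable section

/-! ### heights -/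

/-- height of a rational number: `max(|numerator|, denominator)` in lowest terms. -/
def s8cHt (x : ℚ) : ℕ := max x.num.natAbs x.den

/-- all entries have height at most `B`. -/
def s8cHtLe {ι : Type*} (B : ℕ) (a : ι → ℚ) : Prop := ∀ i, s8cHt (a i) ≤ B

/-- `p / q` with `|p|, q ≤ B`, `q ≠ 0`, has height at most `B`. -/
theorem s8c_ht_div (p : ℤ) (q : ℕ) (B : ℕ) (hq : 0 < q) (hp : p.natAbs ≤ B) (hqB : q ≤ B) :
    s8cHt ((p : ℚ) / (q : ℚ)) ≤ B := by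
  have e : (p : ℚ) / (q : ℚ) = Rat.divInt p (q : ℤ) := by
    rw [Rat.divInt_eq_div]
    norm_cast
  rw [e]
  unfold s8cHt
  refine max_le ?_ ?_
  · by_cases hp0 : p = 0
    · subst hp0
      simp
    · have h1 : (Rat.divInt p (q : ℤ)).num ∣ p := Rat.num_dvd p (by exact_mod_cast hq.ne')
      have h2 : (Rat.divInt p (q : ℤ)).num.natAbs ∣ p.natAbs := Int.natAbs_dvd_natAbs.2 h1
      exact (Nat.le_of_dvd (Int.natAbs_pos.2 hp0) h2).trans hp
  · have h1 : ((Rat.divInt p (q : ℤ)).den : ℤ) ∣ (q : ℤ) := Rat.den_dvd p q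
    have h2 : (Rat.divInt p (q : ℤ)).den ∣ q := Int.natCast_dvd_natCast.1 h1
    exact (Nat.le_of_dvd hq h2).trans hqB

/-- evaluation `a · Θ`. -/
def s8cEv {ι : Type*} [Fintype ι] (a : ι → ℚ) (Θ : ι → ℝ) : ℝ := ∑ i, (a i : ℝ) * Θ i

/-! ### the Cramer bound -/

/-- the constant `C_*` of the paper for dimension `d` and height `H`. -/
def s8cCr (d H : ℕ) : ℕ := (10 * d * H) ^ (100 * d ^ 4)

/-! ### Lemma 8.2 -/

/-- the gap condition (23): every rational vector of height `≤ Hh` evaluates to `≤ lo` or `≥ hi`. -/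
def s8cGap {ι : Type*} [Fintype ι] (Θ : ι → ℝ) (Hh : ℕ) (lo hi : ℝ) : Prop :=
  ∀ a : ι → ℚ, s8cHtLe Hh a → |s8cEv a Θ| ≤ lo ∨ hi ≤ |s8cEv a Θ|

/-- `K_rat`: the rational span of the tiny vectors of height `≤ Hh`. -/
def s8cKrat {ι : Type*} [Fintype ι] (Θ : ι → ℝ) (Hh : ℕ) (lo : ℝ) : Submodule ℚ (ι → ℚ) :=
  Submodule.span ℚ {a | s8cHtLe Hh a ∧ |s8cEv a Θ| ≤ lo}

/-! ### Lemma 8.3: the algebraic core -/

/-- parameter inequalities used by the algebraic core of Lemma 8.3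
(`dι, dκ` = the two dimensions, `D = D_*`, `Cs = C_*`). -/
structure S8cStabPar (dι dκ D Cs A0 Δ R' : ℕ) : Prop where
  D_pos : 1 ≤ D
  Cs_ge : s8cCr dι D ≤ Cs
  A0_ge : 6 ≤ A0
  Δ_lt : Δ < R'
  Cs_lt : Cs < 2 ^ (R' - Δ)
  cube : (1 + dι) * Cs ≤ Cs ^ 3
  A0_big : 6 ^ (R' - Δ) * dι * Cs * D + dκ * Cs ^ 3 * D ≤ A0 ^ (R' - Δ)

/-- `a` is reachable at height `h` with shift bound `Bd`: `a + (0, m / 6^h) ∈ K` for an integral `m`, `|m|_∞ ≤ Bd`. -/
def s8cReach {ι κ : Type*} (K : Submodule ℚ (ι → ℚ)) (emb : (κ → ℚ) →ₗ[ℚ] (ι → ℚ)) (h Bd : ℕ)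
    (a : ι → ℚ) : Prop :=
  ∃ m : κ → ℤ, (∀ i, |m i| ≤ (Bd : ℤ)) ∧ a + emb (fun i => (m i : ℚ) / (6 : ℚ) ^ h) ∈ K

end

end Claimed.Agent.R258
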