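/-
Row 258 (S0498).  Block [S8c] = combinatorial core of Sec. 8 (linearization.tex).  Architect: helper61.
File Rank.lean: floor logarithms to base 1.1, Lemma 8.5 (entry-rank summation), the bad-height predicate of Lemma 8.6,
level functions for relations with bounded chains.  Pure finite combinatorics (Mathlib only, NO paper needed).

LEAF P-S8c-RANK = all `sorry`s of this file (fill in place, auxiliary lemmas with prefix `s8c_`; do not change statements).
PLANS.
* `s8c_log_mono`: `Nat.floor_mono`, `Real.logb_le_logb_of_le` (case `a = 0`: `logb _ 0 = 0`).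
* `s8c_log_eq`: `x = logb 1.1 a ≥ 0`, `y = logb 1.1 b ≥ 0`, `⌊x⌋₊ = ⌊y⌋₊` gives `y < x + 1 = logb 1.1 (1.1 a)`; `Real.logb_lt_logb_iff`.
* `s8c_entry_rank`: write `|X_t|/|S_t| = ∑_{a ∈ X_t} 1/|S_t|`.  For `a ∈ ⋃ S_t` let `τ a` = first `t < T` with `a ∈ S_t`
  (`Nat.find`).  If `a ∈ X_t` then `τ a ≤ t`, so `1/|S_t| ≤ 1/|S_{τ a}|`; exchanging the sums, LHS `≤ A ∑_a 1/|S_{τ a}|`.
  Group by the value of `τ`: `∑_a 1/|S_{τ a}| = ∑_{t<T} (|S_t| - |S_{t-1}|)/|S_t|` (`S_{-1} = ∅`), and
  `(n - m)/n ≤ H_n - H_m` for `m ≤ n` (each of the `n - m` terms `1/r`, `m < r ≤ n`, is `≥ 1/n`); telescope; `H` is monotone.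
* `s8c_levels`: `lev e` = (maximal length of a `link`-chain ending at `e`) - 1; e.g. define `lev` by well-founded recursion on `time`
  as `sup {lev e' + 1 | link e' e}` and prove by induction on `time e` that there is a chain of length `lev e + 1` ending at `e`.
-/
import Mathlib

set_option autoImplicit false

namespace Claimed.Agent.R258

open scoped BigOperators
open Classical

noncomputable section

/-! ### floor logarithm to base `1.1` -/

/-- `⌊log_{1.1} n⌋` (`0` for `n = 0`). -/
def s8cLog (n : ℕ) : ℕ := ⌊Real.logb 1.1 (n : ℝ)⌋₊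

theorem s8c_log_mono {a b : ℕ} (h : a ≤ b) : s8cLog a ≤ s8cLog b := by
  unfold s8cLog
  rcases Nat.eq_zero_or_pos a with rfl | ha
  · simp
  · refine Nat.floor_mono (Real.logb_le_logb_of_le (by norm_num) (by exact_mod_cast ha) (by exact_mod_cast h))

/-- equal floor logs: the two numbers are within the factor `1.1`. -/
theorem s8c_log_eq {a b : ℕ} (ha : 0 < a) (hb : 0 < b) (h : s8cLog a = s8cLog b) :
    (b : ℝ) < 1.1 * a := by
  unfold s8cLog at h
  have ha' : (0 : ℝ) < a := by exact_mod_cast ha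
  have hb' : (0 : ℝ) < b := by exact_mod_cast hb
  have ha1 : (1 : ℝ) ≤ a := by exact_mod_cast ha
  have hx : 0 ≤ Real.logb 1.1 (a : ℝ) := Real.logb_nonneg (by norm_num) ha1
  have h1 : Real.logb 1.1 (b : ℝ) < ⌊Real.logb 1.1 (b : ℝ)⌋₊ + 1 := Nat.lt_floor_add_one _
  have h2 : (⌊Real.logb 1.1 (a : ℝ)⌋₊ : ℝ) ≤ Real.logb 1.1 (a : ℝ) := Nat.floor_le hx
  rw [← h] at h1
  have h3 : Real.logb 1.1 (1.1 * (a : ℝ)) = 1 + Real.logb 1.1 (a : ℝ) := by
    rw [Real.logb_mul (by norm_num) ha'.ne', Real.logb_self_eq_one (by norm_num)]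
  have h4 : Real.logb 1.1 (b : ℝ) < Real.logb 1.1 (1.1 * (a : ℝ)) := by
    rw [h3]
    linarith
  exact (Real.logb_lt_logb_iff (by norm_num) hb' (by positivity)).1 h4

/-! ### Lemma 8.5 -/

theorem s8c_harmonic_sub {m n : ℕ} (h : m ≤ n) :
    ((n : ℝ) - m) / n ≤ (harmonic n : ℝ) - (harmonic m : ℝ) := by
  induction n, h using Nat.le_induction with
  | base => simp
  | succ n hmn ih =>
    rw [harmonic_succ]
    push_cast
    have hm : (m : ℝ) ≤ n := by exact_mod_cast hmn
    have hn0 : (0 : ℝ) ≤ n := Nat.cast_nonneg _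
    have h1 : ((n : ℝ) - m) / ((n : ℝ) + 1) ≤ ((n : ℝ) - m) / n := by
      rcases Nat.eq_zero_or_pos n with rfl | hn
      · have : m = 0 := by omega
        subst this
        simp
      · have hn' : (0 : ℝ) < n := by exact_mod_cast hn
        exact div_le_div_of_nonneg_left (by linarith) hn' (by linarith)
    have h2 : ((n : ℝ) + 1 - m) / ((n : ℝ) + 1) = ((n : ℝ) - m) / ((n : ℝ) + 1) + ((n : ℝ) + 1)⁻¹ := by
      field_simp
      ring
    rw [h2]
    linarith

theorem s8c_harmonic_mono {m n : ℕ} (h : m ≤ n) : (harmonic m : ℝ) ≤ (harmonic n : ℝ) := by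
  have h1 := s8c_harmonic_sub h
  have h2 : (0 : ℝ) ≤ ((n : ℝ) - m) / n :=
    div_nonneg (by have : (m : ℝ) ≤ n := by exact_mod_cast h
                   linarith) (Nat.cast_nonneg _)
  linarith

/-- **Lemma 8.5** (entry-rank summation). -/
theorem s8c_entry_rank {α : Type*} (T : ℕ) (S X : ℕ → Finset α)
    (hmono : ∀ s t, s ≤ t → t < T → S s ⊆ S t) (hne : ∀ t < T, (S t).Nonempty)
    (hX : ∀ t < T, X t ⊆ S t) (M A : ℕ) (hM : ∀ t < T, (S t).card ≤ M)
    (hA : ∀ a, ((Finset.range T).filter (fun t => a ∈ X t)).card ≤ A) :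
    ∑ t ∈ Finset.range T, ((X t).card : ℝ) / ((S t).card : ℝ) ≤ (A : ℝ) * (harmonic M : ℝ) := by
  -- previous sets
  obtain ⟨S', hS'0, hS'1⟩ : ∃ S' : ℕ → Finset α, S' 0 = ∅ ∧ ∀ t, S' (t + 1) = S t :=
    ⟨fun t => Nat.casesOn t ∅ S, rfl, fun _ => rfl⟩
  have hS'sub : ∀ t < T, S' t ⊆ S t := by
    intro t ht
    cases t with
    | zero => rw [hS'0]; exact Finset.empty_subset _
    | succ t => rw [hS'1]; exact hmono t (t + 1) (Nat.le_succ t) ht
  obtain ⟨w, hw⟩ : ∃ w : ℕ → ℝ, ∀ t, w t = 1 / ((S t).card : ℝ) := ⟨_, fun _ => rfl⟩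
  have hw0 : ∀ t, 0 ≤ w t := fun t => by rw [hw]; positivity
  have hcpos : ∀ t < T, (0 : ℝ) < (S t).card := fun t ht => by exact_mod_cast (hne t ht).card_pos
  have hwanti : ∀ s t, s ≤ t → t < T → w t ≤ w s := by
    intro s t hst ht
    rw [hw, hw]
    exact one_div_le_one_div_of_le (hcpos s (lt_of_le_of_lt hst ht))
      (by exact_mod_cast Finset.card_le_card (hmono s t hst ht))
  obtain ⟨g, hg⟩ : ∃ g : α → ℝ, ∀ a, g a = ∑ t ∈ Finset.range T, if a ∈ S t \ S' t then w t else 0 :=
    ⟨_, fun _ => rfl⟩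
  have hg0 : ∀ a, 0 ≤ g a := fun a => by
    rw [hg]
    exact Finset.sum_nonneg fun t _ => by split_ifs <;> [exact hw0 t; exact le_rfl]
  have hwg : ∀ t, t < T → ∀ a ∈ S t, w t ≤ g a := by
    intro t
    induction t with
    | zero =>
      intro ht a ha
      rw [hg]
      have h1 : a ∈ S 0 \ S' 0 := by rw [hS'0]; simpa using ha
      have h2 := Finset.single_le_sum (f := fun t => if a ∈ S t \ S' t then w t else 0)
        (fun t _ => by split_ifs <;> [exact hw0 t; exact le_rfl]) (Finset.mem_range.2 ht)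
      simp only [if_pos h1] at h2
      exact h2
    | succ t ih =>
      intro ht a ha
      by_cases hprev : a ∈ S t
      · exact (hwanti t (t + 1) (Nat.le_succ t) ht).trans (ih (by omega) a hprev)
      · rw [hg]
        have h1 : a ∈ S (t + 1) \ S' (t + 1) := by
          rw [hS'1]
          exact Finset.mem_sdiff.2 ⟨ha, hprev⟩
        have h2 := Finset.single_le_sum (f := fun t => if a ∈ S t \ S' t then w t else 0)
          (fun t _ => by split_ifs <;> [exact hw0 t; exact le_rfl]) (Finset.mem_range.2 ht)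
        simp only [if_pos h1] at h2
        exact h2
  obtain ⟨U, hU⟩ : ∃ U : Finset α, U = (Finset.range T).biUnion S := ⟨_, rfl⟩
  have hSU : ∀ t < T, S t ⊆ U := by
    intro t ht
    rw [hU]
    exact Finset.subset_biUnion_of_mem S (Finset.mem_range.2 ht)
  -- the sum of `g`
  have hgsum : ∑ a ∈ U, g a ≤ (harmonic M : ℝ) := by
    have h1 : ∑ a ∈ U, g a = ∑ t ∈ Finset.range T, ((S t \ S' t).card : ℝ) * w t := by
      simp only [hg]
      rw [Finset.sum_comm]
      refine Finset.sum_congr rfl fun t ht => ?_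
      have e : U.filter (fun a => a ∈ S t \ S' t) = S t \ S' t := by
        ext a
        simp only [Finset.mem_filter]
        constructor
        · exact fun h => h.2
        · intro h
          exact ⟨hSU t (Finset.mem_range.1 ht) (Finset.mem_sdiff.1 h).1, h⟩
      rw [← Finset.sum_filter, Finset.sum_const, nsmul_eq_mul, e]
    have h2 : ∀ t ∈ Finset.range T, ((S t \ S' t).card : ℝ) * w t ≤
        (harmonic (S' (t + 1)).card : ℝ) - (harmonic (S' t).card : ℝ) := by
      intro t ht
      rw [Finset.mem_range] at ht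
      have hle := Finset.card_le_card (hS'sub t ht)
      rw [hS'1, Finset.card_sdiff_of_subset (hS'sub t ht), hw, Nat.cast_sub hle, mul_one_div]
      exact s8c_harmonic_sub hle
    rw [h1]
    refine (Finset.sum_le_sum h2).trans ?_
    rw [Finset.sum_range_sub (fun t => (harmonic (S' t).card : ℝ)), hS'0]
    simp only [Finset.card_empty, harmonic_zero, Rat.cast_zero, sub_zero]
    cases T with
    | zero =>
      rw [hS'0]
      simp only [Finset.card_empty, harmonic_zero, Rat.cast_zero]
      have := s8c_harmonic_mono (Nat.zero_le M)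
      simpa using this
    | succ T =>
      rw [hS'1]
      exact s8c_harmonic_mono (hM T (Nat.lt_succ_self T))
  calc ∑ t ∈ Finset.range T, ((X t).card : ℝ) / ((S t).card : ℝ)
      = ∑ t ∈ Finset.range T, ∑ _a ∈ X t, w t := by
        refine Finset.sum_congr rfl fun t _ => ?_
        rw [Finset.sum_const, nsmul_eq_mul, hw, mul_one_div]
    _ ≤ ∑ t ∈ Finset.range T, ∑ a ∈ X t, g a := by
        refine Finset.sum_le_sum fun t ht => Finset.sum_le_sum fun a ha => ?_
        rw [Finset.mem_range] at ht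
        exact hwg t ht a (hX t ht ha)
    _ = ∑ t ∈ Finset.range T, ∑ a ∈ U, if a ∈ X t then g a else 0 := by
        refine Finset.sum_congr rfl fun t ht => ?_
        rw [Finset.mem_range] at ht
        rw [← Finset.sum_filter]
        congr 1
        ext a
        simp only [Finset.mem_filter]
        exact ⟨fun h => ⟨hSU t ht (hX t ht h), h⟩, fun h => h.2⟩
    _ = ∑ a ∈ U, (((Finset.range T).filter (fun t => a ∈ X t)).card : ℝ) * g a := by
        rw [Finset.sum_comm]
        refine Finset.sum_congr rfl fun a _ => ?_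
        rw [← Finset.sum_filter, Finset.sum_const, nsmul_eq_mul]
    _ ≤ ∑ a ∈ U, (A : ℝ) * g a := by
        refine Finset.sum_le_sum fun a _ => mul_le_mul_of_nonneg_right ?_ (hg0 a)
        exact_mod_cast hA a
    _ = (A : ℝ) * ∑ a ∈ U, g a := by rw [Finset.mul_sum]
    _ ≤ (A : ℝ) * (harmonic M : ℝ) := mul_le_mul_of_nonneg_left hgsum (Nat.cast_nonneg _)

/-! ### Lemma 8.6 -/

/-- the bad heights of Lemma 8.6 at one position: `Pp, Cc : height → set of primaries`, `X` exceptional,
`Y h` height-bad primaries. -/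
def s8cBad {α : Type*} (β : ℝ) (Δ : ℕ) (Pp Cc : ℕ → Finset α) (X : Finset α) (Y : ℕ → Finset α)
    (h : ℕ) : Prop :=
  h < Δ ∨ s8cLog (Pp (h - Δ)).card ≠ s8cLog (Cc h).card ∨
    β * ((Cc h).card : ℝ) < (((X ∪ Y h) ∩ Cc h).card : ℝ)

/-! ### levels -/

/-- A relation on a finite type going strictly forward in `time`, all of whose chains have at most `N`
members, admits a level function with `N` values that separates related elements
(level = length of the longest chain ending at the element). -/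
theorem s8c_levels {Ev : Type*} [Finite Ev] (link : Ev → Ev → Prop) (time : Ev → ℕ)
    (htime : ∀ e e', link e e' → time e < time e') (N : ℕ)
    (hchain : ∀ l : List Ev, l.IsChain link → l.length ≤ N) :
    ∃ lev : Ev → ℕ, (∀ e, lev e < N) ∧ ∀ e e', link e e' → lev e < lev e' := by
  obtain ⟨Ch, hCh⟩ : ∃ Ch : Ev → Set ℕ, ∀ e, Ch e =
      {n | ∃ l : List Ev, l.IsChain link ∧ l.getLast? = some e ∧ l.length = n + 1} := ⟨_, fun _ => rfl⟩
  have hmemCh : ∀ e n, n ∈ Ch e ↔
      ∃ l : List Ev, l.IsChain link ∧ l.getLast? = some e ∧ l.length = n + 1 := by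
    intro e n
    rw [hCh]
    rfl
  have hne : ∀ e, (Ch e).Nonempty := by
    intro e
    exact ⟨0, (hmemCh e 0).2 ⟨[e], List.isChain_singleton e, rfl, rfl⟩⟩
  have hbdd : ∀ e, BddAbove (Ch e) := by
    intro e
    refine ⟨N, ?_⟩
    intro n hn
    obtain ⟨l, hl, -, hlen⟩ := (hmemCh e n).1 hn
    have := hchain l hl
    omega
  refine ⟨fun e => sSup (Ch e), ?_, ?_⟩
  · intro e
    obtain ⟨l, hl, -, hlen⟩ := (hmemCh e _).1 (Nat.sSup_mem (hne e) (hbdd e))
    have := hchain l hl
    show sSup (Ch e) < N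
    omega
  · intro e e' hlink
    obtain ⟨l, hl, hlast, hlen⟩ := (hmemCh e _).1 (Nat.sSup_mem (hne e) (hbdd e))
    have hmem' : sSup (Ch e) + 1 ∈ Ch e' := by
      refine (hmemCh e' _).2 ⟨l ++ [e'], ?_, by simp, ?_⟩
      · refine hl.append (List.isChain_singleton e') ?_
        intro x hx y hy
        rw [hlast] at hx
        simp only [Option.mem_def, Option.some.injEq] at hx
        simp only [List.head?_cons, Option.mem_def, Option.some.injEq] at hy
        rw [← hx, ← hy]
        exact hlink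
      · rw [List.length_append, hlen]
        rfl
    exact Nat.lt_of_succ_le (le_csSup (hbdd e') hmem')

end

end Claimed.Agent.R258
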