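/-
Row 258 (S0498).  Block [S8c], architect helper61.  File Cramer.lean: the Cramer bound.  Mathlib only, NO paper needed.

LEAF P-S8c-CRAMER = the `sorry` of this file (auxiliary lemmas with prefix `s8c_`; do not change the statement; the constant
`s8cCr d H = (10 d H)^(100 d^4)` is very generous).
PLAN.  `d = card ι`.  If `d = 0` or `w = 0`: take `k = 0`, `q = 1`.
1. Extract a linearly independent family `v : Fin k → ι → ℚ` of members of `S` with `span (range v) = span S`
   (`exists_linearIndependent ℚ S`, finite since `k ≤ finrank = d`: `LinearIndependent.fintype_card_le_finrank`), write `w = ∑ c_j v_j`, `c_j ∈ ℚ`.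
2. Clear denominators: `Q_j = ∏_i (v_j i).den ≤ H^d`, `v'_j = Q_j v_j ∈ ℤ^ι`, entries `≤ H^d` in absolute value; the same for `w` (`Q_w`, `w'`).
3. Gram matrix `G = V'ᵀ V'` (`k × k`, integer entries `≤ d H^(2d)`), invertible because `V'` has independent columns
   (`Matrix.ker_mulVecLin_transpose_mul_self`, `Matrix.mulVec_injective_iff_isUnit`, or positive definiteness).  With `c'_j = c_j Q_w / Q_j`:
   `G c' = V'ᵀ w'`, so `det G • c' = adjugate G *ᵥ (V'ᵀ w')` (`Matrix.mul_adjugate`/`Matrix.adjugate_mul`): integer vector.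
4. Take `q = |det G| * Q_w … ` and `b_j = ± (adj G V'ᵀ w')_j * Q_j` arranged so that `q • w = ∑ b_j v_j`; bounds with `Matrix.det_le`
   (`|det| ≤ k! B^k`) for `det G` and for the cofactors.  All bounds are `≤ (d! (d H^(2d))^d) * d * d H^(2d) * H^d ≤ (10 d H)^(100 d^4)`.
-/
import Claimed.Agent.R258.S8c.Lin

set_option autoImplicit false

namespace Claimed.Agent.R258

open scoped BigOperators
open Classical

noncomputable section

theorem s8c_cramer_core {ι : Type*} [Fintype ι] (k : ℕ) (Vz : Matrix ι (Fin k) ℤ) (wz : ι → ℤ)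
    (c : Fin k → ℚ) (E : ℕ) (hV : ∀ i, ∑ j, (Vz i j : ℚ) * c j = wz i)
    (hli : ∀ x : Fin k → ℚ, (∀ i, ∑ j, (Vz i j : ℚ) * x j = 0) → x = 0)
    (hVE : ∀ i j, |Vz i j| ≤ (E : ℤ)) (hwE : ∀ i, |wz i| ≤ (E : ℤ)) :
    ∃ (dG : ℤ) (bz : Fin k → ℤ), dG ≠ 0 ∧
      |dG| ≤ ((k.factorial * (Fintype.card ι * E ^ 2) ^ k : ℕ) : ℤ) ∧
      (∀ j, |bz j| ≤ ((k.factorial * (Fintype.card ι * E ^ 2) ^ k : ℕ) : ℤ)) ∧
      ∀ j, (dG : ℚ) * c j = bz j := by
  set f := Int.castRingHom ℚ with hf
  set G : Matrix (Fin k) (Fin k) ℤ := Vz.transpose * Vz with hG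
  set r : Fin k → ℤ := Vz.transpose.mulVec wz with hr
  set Vq : Matrix ι (Fin k) ℚ := Vz.map f with hVq
  have hGq : G.map f = Vq.transpose * Vq := by
    rw [hG, Matrix.map_mul, Matrix.transpose_map]
  have hVc : Vq.mulVec c = f ∘ wz := by
    funext i
    simp only [Matrix.mulVec, dotProduct, hVq, Matrix.map_apply, Function.comp]
    exact hV i
  have hrq : f ∘ r = Vq.transpose.mulVec (f ∘ wz) := by
    funext a
    simp only [Function.comp, hr]
    rw [RingHom.map_mulVec, Matrix.transpose_map]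
  have hGc : (G.map f).mulVec c = f ∘ r := by
    rw [hGq, ← Matrix.mulVec_mulVec, hVc, hrq]
  have hdet : G.det ≠ 0 := by
    intro h0
    have h1 : (G.map f).det = 0 := by
      have := RingHom.map_det f G
      rw [h0, map_zero, RingHom.mapMatrix_apply] at this
      exact this.symm
    obtain ⟨x, hx0, hx⟩ := Matrix.exists_mulVec_eq_zero_iff.2 h1
    have h2 : x ∈ LinearMap.ker (Vq.transpose * Vq).mulVecLin := by
      rw [LinearMap.mem_ker, Matrix.mulVecLin_apply, ← hGq]
      exact hx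
    rw [Matrix.ker_mulVecLin_transpose_mul_self, LinearMap.mem_ker, Matrix.mulVecLin_apply] at h2
    apply hx0
    apply hli
    intro i
    have := congrFun h2 i
    simp only [Matrix.mulVec, dotProduct, hVq, Matrix.map_apply, Pi.zero_apply] at this
    exact this
  have hbound : ∀ a b, |G a b| ≤ ((Fintype.card ι * E ^ 2 : ℕ) : ℤ) := by
    intro a b
    rw [hG, Matrix.mul_apply]
    refine (Finset.abs_sum_le_sum_abs _ _).trans ?_
    have : ∀ i ∈ Finset.univ, |Vz.transpose a i * Vz i b| ≤ ((E ^ 2 : ℕ) : ℤ) := by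
      intro i _
      rw [abs_mul, Matrix.transpose_apply]
      push_cast
      rw [sq]
      exact mul_le_mul (hVE i a) (hVE i b) (abs_nonneg _) (Int.natCast_nonneg _)
    refine (Finset.sum_le_sum this).trans ?_
    rw [Finset.sum_const, Finset.card_univ]
    simp
  have hboundr : ∀ a, |r a| ≤ ((Fintype.card ι * E ^ 2 : ℕ) : ℤ) := by
    intro a
    rw [hr]
    simp only [Matrix.mulVec, dotProduct]
    refine (Finset.abs_sum_le_sum_abs _ _).trans ?_
    have : ∀ i ∈ Finset.univ, |Vz.transpose a i * wz i| ≤ ((E ^ 2 : ℕ) : ℤ) := by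
      intro i _
      rw [abs_mul, Matrix.transpose_apply]
      push_cast
      rw [sq]
      exact mul_le_mul (hVE i a) (hwE i) (abs_nonneg _) (Int.natCast_nonneg _)
    refine (Finset.sum_le_sum this).trans ?_
    rw [Finset.sum_const, Finset.card_univ]
    simp
  have hdetle : ∀ A : Matrix (Fin k) (Fin k) ℤ, (∀ a b, |A a b| ≤ ((Fintype.card ι * E ^ 2 : ℕ) : ℤ)) →
      |A.det| ≤ ((k.factorial * (Fintype.card ι * E ^ 2) ^ k : ℕ) : ℤ) := by
    intro A hA
    have := Matrix.det_le (A := A) (abv := AbsoluteValue.abs) (x := ((Fintype.card ι * E ^ 2 : ℕ) : ℤ)) hA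
    rw [Fintype.card_fin, AbsoluteValue.abs_apply, nsmul_eq_mul] at this
    push_cast at this ⊢
    exact this
  refine ⟨G.det, fun j => (G.updateCol j r).det, hdet, hdetle G hbound, ?_, ?_⟩
  · intro j
    refine hdetle _ ?_
    intro a b
    rw [Matrix.updateCol_apply]
    split_ifs
    · exact hboundr a
    · exact hbound a b
  · intro j
    have h1 : Matrix.cramer (G.map f) (f ∘ r) = (G.map f).det • c := by
      rw [Matrix.cramer_eq_adjugate_mulVec, ← hGc, Matrix.mulVec_mulVec, Matrix.adjugate_mul,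
        Matrix.smul_mulVec, Matrix.one_mulVec]
    have h2 := congrFun h1 j
    rw [Matrix.cramer_apply, ← Matrix.map_updateCol, Pi.smul_apply, smul_eq_mul] at h2
    have h3 := RingHom.map_det f G
    have h4 := RingHom.map_det f (G.updateCol j r)
    rw [RingHom.mapMatrix_apply] at h3 h4
    rw [← h3, ← h4] at h2
    exact h2.symm

theorem s8c_clear (x : ℚ) (D₀ : ℕ) (hd : x.den ∣ D₀) :
    ∃ z : ℤ, (z : ℚ) = D₀ * x ∧ |z| ≤ ((x.num.natAbs * D₀ : ℕ) : ℤ) := by
  obtain ⟨e, he⟩ := hd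
  refine ⟨x.num * e, ?_, ?_⟩
  · rw [he]
    push_cast
    have := Rat.mul_den_eq_num x
    rw [← this]
    ring
  · rw [abs_mul]
    push_cast
    rw [Int.abs_eq_natAbs, Nat.abs_cast]
    refine mul_le_mul_of_nonneg_left ?_ (by positivity)
    have hden : 1 ≤ x.den := x.den_pos
    have : e ≤ D₀ := by
      rw [he]
      exact Nat.le_mul_of_pos_left e hden
    exact_mod_cast this

theorem s8c_cramer_num (d k H D₀ : ℕ) (hH : 1 ≤ H) (hk : k ≤ d) (hD : D₀ ≤ H ^ (k * d) * H ^ d) :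
    (k.factorial * (d * (H * D₀) ^ 2) ^ k) * (k.factorial * (d * (H * D₀) ^ 2) ^ k) ≤ s8cCr d H := by
  unfold s8cCr
  rcases Nat.eq_zero_or_pos d with rfl | hd
  · have : k = 0 := by omega
    subst this
    simp
  obtain ⟨T, hT⟩ : ∃ T : ℕ, T = 10 * d * H := ⟨_, rfl⟩
  rw [← hT]
  have hT1 : 1 ≤ T := by
    rw [hT]
    have : 1 ≤ d * H := Nat.mul_pos hd hH
    nlinarith
  have hdT : d ≤ T := by
    rw [hT]
    nlinarith
  have hHT : H ≤ T := by
    rw [hT]
    nlinarith
  have h1 : k.factorial ≤ T ^ d := by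
    calc k.factorial ≤ k ^ k := Nat.factorial_le_pow k
      _ ≤ d ^ k := Nat.pow_le_pow_left hk k
      _ ≤ d ^ d := Nat.pow_le_pow_right hd hk
      _ ≤ T ^ d := Nat.pow_le_pow_left hdT d
  have h2 : D₀ ≤ T ^ (d * d + d) := by
    calc D₀ ≤ H ^ (k * d) * H ^ d := hD
      _ = H ^ (k * d + d) := by rw [pow_add]
      _ ≤ H ^ (d * d + d) := Nat.pow_le_pow_right hH (by nlinarith)
      _ ≤ T ^ (d * d + d) := Nat.pow_le_pow_left hHT _
  have h3 : H * D₀ ≤ T ^ (1 + (d * d + d)) := by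
    rw [pow_add, pow_one]
    exact Nat.mul_le_mul hHT h2
  have h4 : d * (H * D₀) ^ 2 ≤ T ^ (1 + (1 + (d * d + d)) * 2) := by
    rw [pow_add, pow_one, pow_mul]
    exact Nat.mul_le_mul hdT (Nat.pow_le_pow_left h3 2)
  have h5 : (d * (H * D₀) ^ 2) ^ k ≤ T ^ ((1 + (1 + (d * d + d)) * 2) * d) := by
    calc (d * (H * D₀) ^ 2) ^ k ≤ (T ^ (1 + (1 + (d * d + d)) * 2)) ^ k := Nat.pow_le_pow_left h4 k
      _ = T ^ ((1 + (1 + (d * d + d)) * 2) * k) := by rw [pow_mul]
      _ ≤ T ^ ((1 + (1 + (d * d + d)) * 2) * d) :=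
          Nat.pow_le_pow_right hT1 (Nat.mul_le_mul_left _ hk)
  have h6 : k.factorial * (d * (H * D₀) ^ 2) ^ k ≤ T ^ (d + (1 + (1 + (d * d + d)) * 2) * d) := by
    rw [pow_add]
    exact Nat.mul_le_mul h1 h5
  calc (k.factorial * (d * (H * D₀) ^ 2) ^ k) * (k.factorial * (d * (H * D₀) ^ 2) ^ k)
      ≤ T ^ (d + (1 + (1 + (d * d + d)) * 2) * d) * T ^ (d + (1 + (1 + (d * d + d)) * 2) * d) :=
        Nat.mul_le_mul h6 h6
    _ = T ^ ((d + (1 + (1 + (d * d + d)) * 2) * d) + (d + (1 + (1 + (d * d + d)) * 2) * d)) :=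
        (pow_add T _ _).symm
    _ ≤ T ^ (100 * d ^ 4) := by
        refine Nat.pow_le_pow_right hT1 ?_
        have e1 : d ≤ d ^ 4 := by
          calc d = d ^ 1 := (pow_one d).symm
            _ ≤ d ^ 4 := Nat.pow_le_pow_right hd (by norm_num)
        have e2 : d ^ 2 ≤ d ^ 4 := Nat.pow_le_pow_right hd (by norm_num)
        have e3 : d ^ 3 ≤ d ^ 4 := Nat.pow_le_pow_right hd (by norm_num)
        have e : (d + (1 + (1 + (d * d + d)) * 2) * d) + (d + (1 + (1 + (d * d + d)) * 2) * d) =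
            8 * d + 4 * d ^ 2 + 4 * d ^ 3 := by ring
        rw [e]
        omega

/-- **Cramer bound.**  A vector of height `≤ H` in the rational span of a set `S` of vectors of height `≤ H` is a
combination of linearly independent members of `S` with integer coefficients and a common denominator, all bounded
by `C_*(d,H)`.
Route: extract a basis `v_1..v_k` of the span from `S`; clear denominators (`q_j ≤ H^d`); Gram matrix
`G = VᵀV` is invertible (`Matrix.ker_mulVecLin_transpose_mul_self`, `Matrix.mulVec_injective_iff_isUnit`);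
`det G • c = adj G • Vᵀ w`; `Matrix.det_le` for all determinants. -/
theorem s8c_cramer {ι : Type*} [Fintype ι] (H : ℕ) (hH : 1 ≤ H) (S : Set (ι → ℚ))
    (hS : ∀ v ∈ S, s8cHtLe H v) (w : ι → ℚ) (hw : s8cHtLe H w) (hmem : w ∈ Submodule.span ℚ S) :
    ∃ (k : ℕ) (v : Fin k → ι → ℚ) (q : ℕ) (b : Fin k → ℤ), k ≤ Fintype.card ι ∧ (∀ j, v j ∈ S) ∧
      LinearIndependent ℚ v ∧ 0 < q ∧ q ≤ s8cCr (Fintype.card ι) H ∧
      (∀ j, |b j| ≤ (s8cCr (Fintype.card ι) H : ℤ)) ∧ (q : ℚ) • w = ∑ j, (b j : ℚ) • v j := by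
  obtain ⟨bs, hbS, hspan, hbli⟩ := exists_linearIndependent ℚ S
  have : Finite bs := hbli.finite
  have : Fintype bs := Fintype.ofFinite bs
  obtain ⟨k, hk⟩ : ∃ k, k = Fintype.card bs := ⟨_, rfl⟩
  have e : bs ≃ Fin k := hk ▸ Fintype.equivFin bs
  obtain ⟨v, hv⟩ : ∃ v : Fin k → ι → ℚ, ∀ j, v j = (e.symm j : ι → ℚ) := ⟨_, fun _ => rfl⟩
  have hvfun : v = (Subtype.val : bs → ι → ℚ) ∘ e.symm := funext hv
  have hvli : LinearIndependent ℚ v := by
    rw [hvfun]
    exact hbli.comp _ e.symm.injective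
  have hvS : ∀ j, v j ∈ S := fun j => by
    rw [hv]
    exact hbS (e.symm j).2
  have hkd : k ≤ Fintype.card ι := by
    have := hvli.fintype_card_le_finrank
    rwa [Fintype.card_fin, Module.finrank_fintype_fun_eq_card] at this
  have hrange : Set.range v = bs := by
    rw [hvfun, Set.range_comp, e.symm.surjective.range_eq, Set.image_univ, Subtype.range_coe]
  have hwspan : w ∈ Submodule.span ℚ (Set.range v) := by
    rw [hrange, hspan]
    exact hmem
  obtain ⟨c, hc⟩ := (Submodule.mem_span_range_iff_exists_fun ℚ).1 hwspan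
  -- common denominator
  obtain ⟨D₀, hD₀⟩ : ∃ D₀ : ℕ, D₀ = (∏ j, ∏ i, (v j i).den) * ∏ i, (w i).den := ⟨_, rfl⟩
  have hD₀pos : 0 < D₀ := by
    rw [hD₀]
    refine Nat.mul_pos ?_ ?_
    · exact Finset.prod_pos fun j _ => Finset.prod_pos fun i _ => (v j i).den_pos
    · exact Finset.prod_pos fun i _ => (w i).den_pos
  have hdenv : ∀ j i, (v j i).den ∣ D₀ := by
    intro j i
    rw [hD₀]
    refine Dvd.dvd.mul_right ?_ _
    exact (Finset.dvd_prod_of_mem (fun i => (v j i).den) (Finset.mem_univ i)).trans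
      (Finset.dvd_prod_of_mem (fun j => ∏ i, (v j i).den) (Finset.mem_univ j))
  have hdenw : ∀ i, (w i).den ∣ D₀ := by
    intro i
    rw [hD₀]
    exact Dvd.dvd.mul_left (Finset.dvd_prod_of_mem (fun i => (w i).den) (Finset.mem_univ i)) _
  have hD₀le : D₀ ≤ H ^ (k * Fintype.card ι) * H ^ Fintype.card ι := by
    rw [hD₀]
    refine Nat.mul_le_mul ?_ ?_
    · have h1 : ∀ j ∈ (Finset.univ : Finset (Fin k)), ∏ i, (v j i).den ≤ H ^ Fintype.card ι := by
        intro j _
        have := Finset.prod_le_pow_card Finset.univ (fun i => (v j i).den) H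
          (fun i _ => (le_max_right _ _).trans (hS _ (hvS j) i))
        rwa [Finset.card_univ] at this
      have := Finset.prod_le_pow_card Finset.univ (fun j => ∏ i, (v j i).den) (H ^ Fintype.card ι) h1
      rw [Finset.card_univ, Fintype.card_fin, ← pow_mul, mul_comm] at this
      exact this
    · have := Finset.prod_le_pow_card Finset.univ (fun i => (w i).den) H
        (fun i _ => (le_max_right _ _).trans (hw i))
      rwa [Finset.card_univ] at this
  have hcv : ∀ i j, ∃ z : ℤ, (z : ℚ) = D₀ * v j i ∧ |z| ≤ ((H * D₀ : ℕ) : ℤ) := by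
    intro i j
    obtain ⟨z, hz1, hz2⟩ := s8c_clear (v j i) D₀ (hdenv j i)
    refine ⟨z, hz1, hz2.trans ?_⟩
    exact_mod_cast Nat.mul_le_mul_right _ ((le_max_left _ _).trans (hS _ (hvS j) i))
  have hcw : ∀ i, ∃ z : ℤ, (z : ℚ) = D₀ * w i ∧ |z| ≤ ((H * D₀ : ℕ) : ℤ) := by
    intro i
    obtain ⟨z, hz1, hz2⟩ := s8c_clear (w i) D₀ (hdenw i)
    refine ⟨z, hz1, hz2.trans ?_⟩
    exact_mod_cast Nat.mul_le_mul_right _ ((le_max_left _ _).trans (hw i))
  choose Vz hVz1 hVz2 using hcv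
  choose wz hwz1 hwz2 using hcw
  have hD₀q : (D₀ : ℚ) ≠ 0 := by exact_mod_cast hD₀pos.ne'
  obtain ⟨dG, bz, hdG0, hdGle, hbzle, hrel⟩ := s8c_cramer_core k (Matrix.of Vz) wz c (H * D₀)
    (by
      intro i
      simp only [Matrix.of_apply, hVz1, hwz1]
      rw [← hc, Finset.sum_apply, Finset.mul_sum]
      refine Finset.sum_congr rfl fun j _ => ?_
      simp only [Pi.smul_apply, smul_eq_mul]
      ring)
    (by
      intro x hx
      have h1 : ∑ j, x j • v j = 0 := by
        funext i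
        have := hx i
        simp only [Matrix.of_apply, hVz1] at this
        rw [Finset.sum_apply, Pi.zero_apply]
        have h2 : (D₀ : ℚ) * ∑ j, (x j • v j) i = 0 := by
          rw [← this, Finset.mul_sum]
          refine Finset.sum_congr rfl fun j _ => ?_
          simp only [Pi.smul_apply, smul_eq_mul]
          ring
        exact (mul_eq_zero.1 h2).resolve_left hD₀q
      funext j
      exact Fintype.linearIndependent_iff.1 hvli x h1 j)
    (fun i j => hVz2 i j) hwz2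
  have hnum := s8c_cramer_num (Fintype.card ι) k H D₀ hH hkd hD₀le
  obtain ⟨F, hF⟩ : ∃ F : ℕ, F = k.factorial * (Fintype.card ι * (H * D₀) ^ 2) ^ k := ⟨_, rfl⟩
  rw [← hF] at hnum hdGle hbzle
  refine ⟨k, v, dG.natAbs * dG.natAbs, fun j => dG * bz j, hkd, hvS, hvli, ?_, ?_, ?_, ?_⟩
  · exact Nat.mul_pos (Int.natAbs_pos.2 hdG0) (Int.natAbs_pos.2 hdG0)
  · have h1 : dG.natAbs ≤ F := by
      have : ((dG.natAbs : ℕ) : ℤ) ≤ (F : ℤ) := by
        rw [Int.natCast_natAbs]
        exact hdGle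
      exact_mod_cast this
    exact (Nat.mul_le_mul h1 h1).trans hnum
  · intro j
    rw [abs_mul]
    have h1 : |dG| * |bz j| ≤ (F : ℤ) * (F : ℤ) :=
      mul_le_mul hdGle (hbzle j) (abs_nonneg _) (Int.natCast_nonneg _)
    refine h1.trans ?_
    exact_mod_cast hnum
  · have hq : ((dG.natAbs * dG.natAbs : ℕ) : ℚ) = (dG : ℚ) * dG := by
      have h1 : ((dG.natAbs * dG.natAbs : ℕ) : ℤ) = dG * dG := by
        rw [Nat.cast_mul]
        exact Int.natAbs_mul_self' dG
      have h2 : (((dG.natAbs * dG.natAbs : ℕ) : ℤ) : ℚ) = ((dG * dG : ℤ) : ℚ) := by rw [h1]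
      rw [Int.cast_natCast, Int.cast_mul] at h2
      exact h2
    rw [hq, ← hc, Finset.smul_sum]
    refine Finset.sum_congr rfl fun j _ => ?_
    rw [smul_smul]
    congr 1
    push_cast
    rw [← hrel j]
    ring

end

end Claimed.Agent.R258
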