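/-
Row 258 (S0498).  Block [S8c], architect helper61.  File Exc.lean: Lemma 8.2 (tiny rational space, exceptional blocks) together with the part of
Lemma 3.5 (height bins) that it uses.  Mathlib only, NO paper needed.

LEAF P-S8c-EXC = all `sorry`s of this file + `s8c_ht_div` in Lin.lean.   `s8c_cramer` may be used as a black box.
PLANS.
* `s8c_tiny_closed`: `s8c_cramer` with `S` = the defining set of `K_rat`: `q a = ∑_{j<k} b_j v_j`, `k ≤ d`, `|b_j| ≤ Cr`, `q ≥ 1`, `|v_j·Θ| ≤ lo`;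
  `s8cEv` is linear, so `|a·Θ| ≤ q |a·Θ| ≤ d Cr lo < hi`; the gap excludes the second alternative.
* `s8c_sep_indep`: if `a_t` is in the span of the `a_s` with smaller evaluation, Cramer gives `q |ev a_t| ≤ d Cr max_s |ev a_s| < |ev a_t|`.
  For linear independence: in a nontrivial relation take the index with the largest evaluation among the nonzero coefficients.
* `s8c_packets`: the set of vectors of height `≤ Hh` is finite (entries are `p/q`, `|p|, q ≤ Hh`), so the set `𝓔` of nonzero `|ev a|` is a finite set of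
  positive reals.  Greedy selection by induction on the cardinality: for every finite set `𝓔` of positive reals and `Rs ≥ 1` there is `Sel ⊆ 𝓔` with
  (i) every `s ∈ 𝓔` lies in `[t, Rs t]` for some `t ∈ Sel`, (ii) `t < t'` in `Sel` implies `Rs t < t'` (take the minimum `t₀`, recurse on `{s > Rs t₀}`).
  `card Sel ≤ card ι` by `s8c_sep_indep` (`LinearIndependent.fintype_card_le_finrank`).  `packets = Sel.image (fun t => logb 2 (t r0))`.
* `s8c_exceptional_count`: `j` exceptional ⇒ some `a` with `lo < |ev a| < hi` (so `ev a ≠ 0`), `x = logb 2 (|ev a| r0) ∈ (b-2K-τ, b+K+τ)`, `x ∈ [α, α+W]`: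
  `b = b0 + K j ∈ (α - K - τ, α + W + 2K + τ)`, an open interval of length `≤ 4K`: at most `4` values of `j`.  Union over the packets
  (`Set.encard_le_encard`, `Set.encard_biUnion_le`-type bound or induction on the finset `packets`).
* `s8c_exceptional_le`: combine (`r0 = 1`, `W = logb 2 (d Cr + 1) ≤ clog`, `Real.rpow_intCast` to pass from `zpow` to `rpow`, `b0 = v0 + 2K`).
-/
import Claimed.Agent.R258.S8c.Cramer

set_option autoImplicit false

namespace Claimed.Agent.R258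

open scoped BigOperators
open Classical

noncomputable section

/-! ### linearity of the evaluation -/

theorem s8c_ev_smul {ι : Type*} [Fintype ι] (c : ℚ) (a : ι → ℚ) (Θ : ι → ℝ) :
    s8cEv (c • a) Θ = (c : ℝ) * s8cEv a Θ := by
  unfold s8cEv
  rw [Finset.mul_sum]
  refine Finset.sum_congr rfl fun i _ => ?_
  simp only [Pi.smul_apply, smul_eq_mul]
  push_cast
  ring

theorem s8c_ev_sum {ι : Type*} [Fintype ι] {σ : Type*} (s : Finset σ) (f : σ → ι → ℚ) (Θ : ι → ℝ) :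
    s8cEv (∑ j ∈ s, f j) Θ = ∑ j ∈ s, s8cEv (f j) Θ := by
  unfold s8cEv
  rw [Finset.sum_comm]
  refine Finset.sum_congr rfl fun i _ => ?_
  rw [Finset.sum_apply, Rat.cast_sum, Finset.sum_mul]

/-- the basic consequence of the Cramer bound -/
theorem s8c_ev_bound {ι : Type*} [Fintype ι] (Θ : ι → ℝ) (H : ℕ) (hH : 1 ≤ H) (S : Set (ι → ℚ))
    (hS : ∀ v ∈ S, s8cHtLe H v) {M : ℝ} (hM : 0 ≤ M) (hSM : ∀ v ∈ S, |s8cEv v Θ| ≤ M) (w : ι → ℚ)
    (hw : s8cHtLe H w) (hmem : w ∈ Submodule.span ℚ S) :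
    |s8cEv w Θ| ≤ (Fintype.card ι : ℝ) * (s8cCr (Fintype.card ι) H : ℝ) * M := by
  obtain ⟨k, v, q, b, hk, hv, -, hq, -, hb, hqw⟩ := s8c_cramer H hH S hS w hw hmem
  have h1 : (q : ℝ) * s8cEv w Θ = ∑ j, (b j : ℝ) * s8cEv (v j) Θ := by
    have := congrArg (fun u => s8cEv u Θ) hqw
    simp only [s8c_ev_smul, s8c_ev_sum] at this
    simpa using this
  have hq1 : (1 : ℝ) ≤ q := by exact_mod_cast hq
  have hCr0 : (0 : ℝ) ≤ (s8cCr (Fintype.card ι) H : ℝ) := Nat.cast_nonneg _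
  calc |s8cEv w Θ| ≤ (q : ℝ) * |s8cEv w Θ| := le_mul_of_one_le_left (abs_nonneg _) hq1
    _ = |(q : ℝ) * s8cEv w Θ| := by rw [abs_mul, abs_of_nonneg (by linarith : (0 : ℝ) ≤ q)]
    _ = |∑ j, (b j : ℝ) * s8cEv (v j) Θ| := by rw [h1]
    _ ≤ ∑ j, |(b j : ℝ) * s8cEv (v j) Θ| := Finset.abs_sum_le_sum_abs _ _
    _ ≤ ∑ _j : Fin k, (s8cCr (Fintype.card ι) H : ℝ) * M := by
        refine Finset.sum_le_sum fun j _ => ?_
        rw [abs_mul]
        refine mul_le_mul ?_ (hSM _ (hv j)) (abs_nonneg _) hCr0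
        have := hb j
        exact_mod_cast this
    _ = (k : ℝ) * ((s8cCr (Fintype.card ι) H : ℝ) * M) := by simp
    _ ≤ (Fintype.card ι : ℝ) * ((s8cCr (Fintype.card ι) H : ℝ) * M) := by
        refine mul_le_mul_of_nonneg_right ?_ (mul_nonneg hCr0 hM)
        exact_mod_cast hk
    _ = _ := by ring

/-- **Lemma 8.2, second part**: a vector of height `≤ Hh` in `K_rat` is tiny. -/
theorem s8c_tiny_closed {ι : Type*} [Fintype ι] (Θ : ι → ℝ) (Hh : ℕ) (hH : 1 ≤ Hh) (lo hi : ℝ)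
    (hlo : 0 ≤ lo) (hgap : s8cGap Θ Hh lo hi)
    (hpar : (Fintype.card ι : ℝ) * (s8cCr (Fintype.card ι) Hh : ℝ) * lo < hi)
    (a : ι → ℚ) (ha : s8cHtLe Hh a) (hmem : a ∈ s8cKrat Θ Hh lo) : |s8cEv a Θ| ≤ lo := by
  have h1 := s8c_ev_bound Θ Hh hH {a | s8cHtLe Hh a ∧ |s8cEv a Θ| ≤ lo} (fun v hv => hv.1) hlo
    (fun v hv => hv.2) a ha hmem
  rcases hgap a ha with h | h
  · exact h
  · linarith

/-- vectors of height `≤ Hh` whose nonzero evaluations are pairwise separated by a factor `> d C_*(d,Hh)` are linearly independent. -/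
theorem s8c_sep_indep {ι : Type*} [Fintype ι] (Θ : ι → ℝ) (Hh : ℕ) (hH : 1 ≤ Hh) {σ : Type*} [Fintype σ] (a : σ → ι → ℚ)
    (ha : ∀ t, s8cHtLe Hh (a t)) (h0 : ∀ t, s8cEv (a t) Θ ≠ 0)
    (hsep : ∀ t t', |s8cEv (a t) Θ| < |s8cEv (a t') Θ| →
      ((Fintype.card ι : ℝ) * (s8cCr (Fintype.card ι) Hh : ℝ) + 1) * |s8cEv (a t) Θ| < |s8cEv (a t') Θ|)
    (hinj : ∀ t t', |s8cEv (a t) Θ| = |s8cEv (a t') Θ| → t = t') : LinearIndependent ℚ a := by
  rw [Fintype.linearIndependent_iff]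
  intro g hg
  by_contra hcon
  push Not at hcon
  obtain ⟨i₀, hi₀⟩ := hcon
  set T : Finset σ := Finset.univ.filter (fun t => g t ≠ 0) with hT
  have hTne : T.Nonempty := ⟨i₀, by simp [hT, hi₀]⟩
  obtain ⟨t₀, ht₀T, hmax⟩ := Finset.exists_max_image T (fun t => |s8cEv (a t) Θ|) hTne
  have hgt₀ : g t₀ ≠ 0 := by simpa [hT] using ht₀T
  set S : Set (ι → ℚ) := {v | ∃ t, t ≠ t₀ ∧ g t ≠ 0 ∧ v = a t} with hS
  set R : ℝ := (Fintype.card ι : ℝ) * (s8cCr (Fintype.card ι) Hh : ℝ) with hR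
  have hR0 : 0 ≤ R := by positivity
  have hE : 0 < |s8cEv (a t₀) Θ| := abs_pos.2 (h0 t₀)
  have hmem : a t₀ ∈ Submodule.span ℚ S := by
    have h1 : g t₀ • a t₀ + ∑ t ∈ Finset.univ.erase t₀, g t • a t = 0 :=
      (Finset.add_sum_erase Finset.univ (fun t => g t • a t) (Finset.mem_univ t₀)).trans hg
    have h2 : a t₀ = (g t₀)⁻¹ • (-∑ t ∈ Finset.univ.erase t₀, g t • a t) := by
      rw [← eq_neg_of_add_eq_zero_left h1, smul_smul, inv_mul_cancel₀ hgt₀, one_smul]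
    rw [h2]
    refine Submodule.smul_mem _ _ (Submodule.neg_mem _ (Submodule.sum_mem _ fun t ht => ?_))
    by_cases hgt : g t = 0
    · rw [hgt, zero_smul]
      exact Submodule.zero_mem _
    · exact Submodule.smul_mem _ _ (Submodule.subset_span ⟨t, Finset.ne_of_mem_erase ht, hgt, rfl⟩)
  have hSM : ∀ v ∈ S, |s8cEv v Θ| ≤ |s8cEv (a t₀) Θ| / (R + 1) := by
    rintro v ⟨t, htt₀, hgt, rfl⟩
    have h1 : |s8cEv (a t) Θ| ≤ |s8cEv (a t₀) Θ| := hmax t (by simp [hT, hgt])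
    have h2 : |s8cEv (a t) Θ| < |s8cEv (a t₀) Θ| :=
      lt_of_le_of_ne h1 fun h => htt₀ (hinj _ _ h)
    rw [le_div_iff₀ (by linarith)]
    linarith [hsep t t₀ h2]
  have hb := s8c_ev_bound Θ Hh hH S (by rintro v ⟨t, -, -, rfl⟩; exact ha t)
    (div_nonneg hE.le (by linarith)) hSM (a t₀) (ha t₀) hmem
  rw [← hR, mul_div_assoc', le_div_iff₀ (by linarith)] at hb
  nlinarith

/-! ### finiteness and greedy selection -/

theorem s8c_finite_ht (B : ℕ) : {x : ℚ | s8cHt x ≤ B}.Finite := by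
  have hfin : ((Set.Icc (-(B : ℤ)) B ×ˢ Set.Icc (0 : ℕ) B).image
      (fun p : ℤ × ℕ => (p.1 : ℚ) / (p.2 : ℚ))).Finite :=
    ((Set.finite_Icc _ _).prod (Set.finite_Icc _ _)).image _
  refine hfin.subset fun x hx => ?_
  have hx' : max x.num.natAbs x.den ≤ B := hx
  have h1 : x.num.natAbs ≤ B := (le_max_left _ _).trans hx'
  have h2 : x.den ≤ B := (le_max_right _ _).trans hx'
  refine ⟨(x.num, x.den), ⟨?_, ⟨Nat.zero_le _, h2⟩⟩, Rat.num_div_den x⟩
  have h3 : |x.num| ≤ (B : ℤ) := by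
    rw [Int.abs_eq_natAbs]
    exact_mod_cast h1
  exact abs_le.1 h3

theorem s8c_finite_htLe {ι : Type*} [Fintype ι] (B : ℕ) : {a : ι → ℚ | s8cHtLe B a}.Finite := by
  have h := Set.Finite.pi (ι := ι) (t := fun _ => {x : ℚ | s8cHt x ≤ B}) (fun _ => s8c_finite_ht B)
  refine h.subset fun a ha i _ => ha i

/-- greedy selection of well separated representatives in a finite set of reals -/
theorem s8c_greedy (Rs : ℝ) (hRs : 1 ≤ Rs) : ∀ (n : ℕ) (E : Finset ℝ), E.card ≤ n → (∀ s ∈ E, 0 < s) →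
    ∃ Sel : Finset ℝ, Sel ⊆ E ∧ (∀ s ∈ E, ∃ t ∈ Sel, t ≤ s ∧ s ≤ Rs * t) ∧
      ∀ t ∈ Sel, ∀ t' ∈ Sel, t < t' → Rs * t < t' := by
  intro n
  induction n with
  | zero =>
    intro E hE _
    have : E = ∅ := Finset.card_eq_zero.1 (Nat.le_zero.1 hE)
    subst this
    exact ⟨∅, Finset.Subset.refl _, by simp, by simp⟩
  | succ n ih =>
    intro E hE hpos
    by_cases hne : E.Nonempty
    · set t₀ := E.min' hne with ht₀
      have ht₀E : t₀ ∈ E := Finset.min'_mem E hne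
      have ht₀pos : 0 < t₀ := hpos t₀ ht₀E
      set E' : Finset ℝ := E.filter (fun s => Rs * t₀ < s) with hE'
      have hE'sub : E' ⊆ E := Finset.filter_subset _ _
      have ht₀E' : t₀ ∉ E' := by
        intro h
        have h1 : Rs * t₀ < t₀ := (Finset.mem_filter.1 h).2
        nlinarith
      have hcard : E'.card ≤ n := by
        have h1 : E'.card < E.card :=
          Finset.card_lt_card ⟨hE'sub, fun h => ht₀E' (h ht₀E)⟩
        omega
      obtain ⟨Sel, hSel, hcov, hsep⟩ := ih E' hcard (fun s hs => hpos s (hE'sub hs))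
      refine ⟨insert t₀ Sel, ?_, ?_, ?_⟩
      · intro s hs
        rcases Finset.mem_insert.1 hs with rfl | hs
        · exact ht₀E
        · exact hE'sub (hSel hs)
      · intro s hs
        by_cases hs' : Rs * t₀ < s
        · obtain ⟨t, ht, h1, h2⟩ := hcov s (Finset.mem_filter.2 ⟨hs, hs'⟩)
          exact ⟨t, Finset.mem_insert_of_mem ht, h1, h2⟩
        · exact ⟨t₀, Finset.mem_insert_self _ _, Finset.min'_le E s hs, not_lt.1 hs'⟩
      · intro t ht t' ht' htt'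
        rcases Finset.mem_insert.1 ht with rfl | ht
        · rcases Finset.mem_insert.1 ht' with rfl | ht'
          · exact absurd htt' (lt_irrefl _)
          · exact (Finset.mem_filter.1 (hSel ht')).2
        · rcases Finset.mem_insert.1 ht' with rfl | ht'
          · exact absurd htt' (not_lt.2 (Finset.min'_le E t (hE'sub (hSel ht))))
          · exact hsep t ht t' ht' htt'
    · rw [Finset.not_nonempty_iff_eq_empty] at hne
      subst hne
      exact ⟨∅, Finset.Subset.refl _, by simp, by simp⟩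

/-- **Lemma 3.5 (height bins), first assertion**: the logarithms of the nonzero evaluations of the vectors of height `≤ Hh` lie in at most
`d` packets of width `log₂ (d C_*(d,Hh) + 1)`. -/
theorem s8c_packets {ι : Type*} [Fintype ι] (Θ : ι → ℝ) (Hh : ℕ) (hH : 1 ≤ Hh) (r0 : ℝ) (hr0 : 0 < r0) :
    ∃ packets : Finset ℝ, packets.card ≤ Fintype.card ι ∧
      ∀ a : ι → ℚ, s8cHtLe Hh a → s8cEv a Θ ≠ 0 → ∃ α ∈ packets,
        α ≤ Real.logb 2 (|s8cEv a Θ| * r0) ∧ Real.logb 2 (|s8cEv a Θ| * r0) ≤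
          α + Real.logb 2 ((Fintype.card ι : ℝ) * (s8cCr (Fintype.card ι) Hh : ℝ) + 1) := by
  set Rs : ℝ := (Fintype.card ι : ℝ) * (s8cCr (Fintype.card ι) Hh : ℝ) + 1 with hRs
  have hRs1 : 1 ≤ Rs := by
    have : (0 : ℝ) ≤ (Fintype.card ι : ℝ) * (s8cCr (Fintype.card ι) Hh : ℝ) := by positivity
    linarith
  have hfin : ((fun a : ι → ℚ => |s8cEv a Θ|) '' {a : ι → ℚ | s8cHtLe Hh a ∧ s8cEv a Θ ≠ 0}).Finite :=
    ((s8c_finite_htLe (ι := ι) Hh).subset fun a ha => ha.1).image _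
  set E : Finset ℝ := hfin.toFinset with hE
  have hEmem : ∀ s, s ∈ E ↔ ∃ a : ι → ℚ, (s8cHtLe Hh a ∧ s8cEv a Θ ≠ 0) ∧ |s8cEv a Θ| = s := by
    intro s
    rw [hE, Set.Finite.mem_toFinset]
    exact Iff.rfl
  have hEpos : ∀ s ∈ E, 0 < s := by
    intro s hs
    obtain ⟨a, ⟨-, h0⟩, rfl⟩ := (hEmem s).1 hs
    exact abs_pos.2 h0
  obtain ⟨Sel, hSel, hcov, hsep⟩ := s8c_greedy Rs hRs1 E.card E le_rfl hEpos
  have hch : ∀ t : Sel, ∃ a : ι → ℚ, (s8cHtLe Hh a ∧ s8cEv a Θ ≠ 0) ∧ |s8cEv a Θ| = t.1 :=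
    fun t => (hEmem t.1).1 (hSel t.2)
  choose a ha using hch
  have hli : LinearIndependent ℚ a := by
    refine s8c_sep_indep Θ Hh hH a (fun t => (ha t).1.1) (fun t => (ha t).1.2) ?_ ?_
    · intro t t' h
      rw [(ha t).2, (ha t').2] at h ⊢
      exact hsep t.1 t.2 t'.1 t'.2 h
    · intro t t' h
      rw [(ha t).2, (ha t').2] at h
      exact Subtype.ext h
  have hcard : Sel.card ≤ Fintype.card ι := by
    have h1 := hli.fintype_card_le_finrank
    rw [Module.finrank_fintype_fun_eq_card, Fintype.card_coe] at h1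
    exact h1
  refine ⟨Sel.image (fun t => Real.logb 2 (t * r0)), Finset.card_image_le.trans hcard, ?_⟩
  intro b hb hb0
  obtain ⟨t, ht, h1, h2⟩ := hcov |s8cEv b Θ| ((hEmem _).2 ⟨b, ⟨hb, hb0⟩, rfl⟩)
  have htpos : 0 < t := hEpos t (hSel ht)
  refine ⟨_, Finset.mem_image_of_mem _ ht, ?_, ?_⟩
  · exact Real.logb_le_logb_of_le (by norm_num) (by positivity) (by gcongr)
  · have h3 : Real.logb 2 (t * r0) + Real.logb 2 Rs = Real.logb 2 (Rs * t * r0) := by
      rw [← Real.logb_mul (by positivity) (by positivity)]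
      congr 1
      ring
    rw [h3]
    exact Real.logb_le_logb_of_le (by norm_num) (mul_pos (abs_pos.2 hb0) hr0) (by gcongr)

/-- **Lemma 8.2, first part**: with the log-packets of Lemma 3.5 (height bins) as a hypothesis, a primary is
exceptional in at most `5 · #packets` blocks of the `K`-spaced schedule `b = b0 + K j`.
`r_s = r0 2^{-s}`, `𝒯 = 2^τ`, `v_b = b - 2K`, `t_b = b + K`:
`lo = 𝒯⁻¹ / r_{v_b} = 2^(b - 2K - τ) / r0`, `hi = 𝒯 / r_{t_b} = 2^(b + K + τ) / r0`. -/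
theorem s8c_exceptional_count {ι : Type*} [Fintype ι] (Θ : ι → ℝ) (Hh : ℕ) (W τ r0 : ℝ) (hr0 : 0 < r0)
    (K : ℕ) (hK0 : 0 < K) (hK : W + 2 * τ ≤ K) (packets : Finset ℝ)
    (hpk : ∀ a : ι → ℚ, s8cHtLe Hh a → s8cEv a Θ ≠ 0 → ∃ α ∈ packets,
      α ≤ Real.logb 2 (|s8cEv a Θ| * r0) ∧ Real.logb 2 (|s8cEv a Θ| * r0) ≤ α + W)
    (b0 : ℤ) :
    {j : ℤ | ¬ s8cGap Θ Hh ((2 : ℝ) ^ (((b0 + K * j : ℤ) : ℝ) - 2 * K - τ) / r0)
        ((2 : ℝ) ^ (((b0 + K * j : ℤ) : ℝ) + K + τ) / r0)}.encard ≤ 5 * packets.card := by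
  have hKpos : (0 : ℝ) < K := by exact_mod_cast hK0
  set u : ℝ → ℝ := fun α => (α - K - τ - b0) / K with hu
  set cover : Finset ℤ := packets.biUnion (fun α => Finset.Icc ⌊u α⌋ (⌊u α⌋ + 4)) with hcover
  have hsub : {j : ℤ | ¬ s8cGap Θ Hh ((2 : ℝ) ^ (((b0 + K * j : ℤ) : ℝ) - 2 * K - τ) / r0)
        ((2 : ℝ) ^ (((b0 + K * j : ℤ) : ℝ) + K + τ) / r0)} ⊆ (cover : Set ℤ) := by
    intro j hj
    have hj' : ¬ s8cGap Θ Hh ((2 : ℝ) ^ (((b0 + K * j : ℤ) : ℝ) - 2 * K - τ) / r0)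
        ((2 : ℝ) ^ (((b0 + K * j : ℤ) : ℝ) + K + τ) / r0) := hj
    unfold s8cGap at hj'
    push Not at hj'
    obtain ⟨a, ha, hlo, hhi⟩ := hj'
    set b : ℝ := ((b0 + K * j : ℤ) : ℝ) with hb
    have hlopos : 0 < (2 : ℝ) ^ (b - 2 * K - τ) / r0 := by positivity
    have hevpos : 0 < |s8cEv a Θ| := hlopos.trans hlo
    have hev0 : s8cEv a Θ ≠ 0 := abs_pos.1 hevpos
    obtain ⟨α, hα, h1, h2⟩ := hpk a ha hev0
    set x : ℝ := Real.logb 2 (|s8cEv a Θ| * r0) with hx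
    have hxpos : 0 < |s8cEv a Θ| * r0 := by positivity
    have h3 : b - 2 * K - τ < x := by
      rw [hx, Real.lt_logb_iff_rpow_lt (by norm_num) hxpos]
      rwa [div_lt_iff₀ hr0] at hlo
    have h4 : x < b + K + τ := by
      rw [hx, Real.logb_lt_iff_lt_rpow (by norm_num) hxpos]
      rwa [lt_div_iff₀ hr0] at hhi
    have hbj : b = b0 + K * j := by
      rw [hb]
      push_cast
      ring
    have h5 : u α < j := by
      rw [hu]
      show (α - K - τ - b0) / K < j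
      rw [div_lt_iff₀ hKpos]
      nlinarith
    have h6 : (j : ℝ) < u α + 4 := by
      have : (j : ℝ) - 4 < u α := by
        show (j : ℝ) - 4 < (α - K - τ - b0) / K
        rw [lt_div_iff₀ hKpos]
        nlinarith
      linarith
    rw [hcover, Finset.coe_biUnion, Set.mem_iUnion₂]
    refine ⟨α, hα, ?_⟩
    rw [Finset.mem_coe, Finset.mem_Icc]
    constructor
    · exact Int.floor_le_iff.2 (by linarith)
    · have h7 : (j : ℝ) < (⌊u α⌋ : ℝ) + 1 + 4 := by linarith [Int.lt_floor_add_one (u α)]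
      have h8 : j < ⌊u α⌋ + 1 + 4 := by exact_mod_cast h7
      omega
  have hcard : cover.card ≤ packets.card * 5 := by
    refine Finset.card_biUnion_le_card_mul _ _ _ fun α _ => ?_
    have h5 : ⌊u α⌋ + 4 + 1 - ⌊u α⌋ = 5 := by ring
    rw [Int.card_Icc, h5]
    rfl
  calc _ ≤ (cover : Set ℤ).encard := Set.encard_le_encard hsub
    _ = (cover.card : ℕ∞) := Set.encard_coe_eq_coe_finsetCard _
    _ ≤ ((packets.card * 5 : ℕ) : ℕ∞) := by exact_mod_cast hcard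
    _ = 5 * packets.card := by
        push_cast
        ring

/-- **Lemma 8.2, first part, final form** (`v = v0 + K j` = depth of the pre-cells, `r_s = 2^{-s}`, `𝒯 = 2^τ`):
`lo = 𝒯⁻¹ / r_v`, `hi = 𝒯 / r_{v+3K}`. -/
theorem s8c_exceptional_le {ι : Type*} [Fintype ι] (Θ : ι → ℝ) (Hh : ℕ) (hH : 1 ≤ Hh) (τ K : ℕ) (hK0 : 0 < K)
    (hK : Nat.clog 2 (Fintype.card ι * s8cCr (Fintype.card ι) Hh + 1) + 2 * τ ≤ K) (v0 : ℤ) :
    {j : ℤ | ¬ s8cGap Θ Hh ((2 : ℝ) ^ (v0 + K * j - τ : ℤ)) ((2 : ℝ) ^ (v0 + K * j + 3 * K + τ : ℤ))}.encard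
      ≤ 5 * Fintype.card ι := by
  obtain ⟨packets, hpc, hpk⟩ := s8c_packets Θ Hh hH 1 one_pos
  set n : ℕ := Fintype.card ι * s8cCr (Fintype.card ι) Hh + 1 with hn
  have hW : Real.logb 2 ((Fintype.card ι : ℝ) * (s8cCr (Fintype.card ι) Hh : ℝ) + 1)
      ≤ (Nat.clog 2 n : ℝ) := by
    have h1 : n ≤ 2 ^ Nat.clog 2 n := Nat.le_pow_clog (by norm_num) n
    have h2 : ((Fintype.card ι : ℝ) * (s8cCr (Fintype.card ι) Hh : ℝ) + 1)
        ≤ (2 : ℝ) ^ (Nat.clog 2 n : ℝ) := by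
      rw [Real.rpow_natCast]
      exact_mod_cast h1
    rw [Real.logb_le_iff_le_rpow (by norm_num) (by positivity)]
    exact h2
  have hK' : Real.logb 2 ((Fintype.card ι : ℝ) * (s8cCr (Fintype.card ι) Hh : ℝ) + 1)
      + 2 * (τ : ℝ) ≤ (K : ℝ) := by
    have : ((Nat.clog 2 n + 2 * τ : ℕ) : ℝ) ≤ (K : ℝ) := by exact_mod_cast hK
    push_cast at this
    linarith
  have key := s8c_exceptional_count Θ Hh _ (τ : ℝ) 1 one_pos K hK0 hK' packets hpk (v0 + 2 * K)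
  have e1 : ∀ j : ℤ, (2 : ℝ) ^ (((v0 + 2 * K + K * j : ℤ) : ℝ) - 2 * K - τ) / 1
      = (2 : ℝ) ^ (v0 + K * j - τ : ℤ) := by
    intro j
    rw [div_one, ← Real.rpow_intCast]
    congr 1
    push_cast
    ring
  have e2 : ∀ j : ℤ, (2 : ℝ) ^ (((v0 + 2 * K + K * j : ℤ) : ℝ) + K + τ) / 1
      = (2 : ℝ) ^ (v0 + K * j + 3 * K + τ : ℤ) := by
    intro j
    rw [div_one, ← Real.rpow_intCast]
    congr 1
    push_cast
    ring
  simp only [e1, e2] at key
  refine key.trans ?_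
  have : (packets.card : ℕ∞) ≤ (Fintype.card ι : ℕ∞) := by exact_mod_cast hpc
  gcongr

end

end Claimed.Agent.R258
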