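/-
Row 258 (S0498).  Block [S8c], architect helper61.  File StabA.lean: the three elementary steps of Lemma 8.3.  Mathlib only, NO paper needed.

LEAF P-S8c-STABA: PROVED (helper254).
PLANS.
* `s8c_rank_stable`: `f h = finrank (V h)` is monotone and `≤ n = finrank E`; `V i ≠ V (i+1)` forces `f i < f (i+1)` (`Submodule.finrank_lt_finrank_of_lt`).
  The set `jumps = {i | f i < f (i+1)}` has at most `n` elements (for a finite set `s` of jumps, `card s ≤ f (sup s + 1) - f 0`, induction).  If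
  `V (h - R') ≠ V h` there is a jump `i` with `h - R' ≤ i < h`.  `Bad = jumps.biUnion (fun i => Finset.Ioc i (i + R'))`.
* `s8c_div_step`: `N = R' - Δ`.  `q = 2^a q₂`, `¬ 2 ∣ q₂`, `q₂ = 3^b q'`, `¬ 3 ∣ q'` (`Nat.exists_eq_pow_mul_and_not_dvd`); `a, b < N` because `2^a, 3^b ≤ q < 2^N`;
  so `6^N = 2^a 3^b c`.  Dividing the hypothesis by `2^a 3^b`: `q' m - 6^Δ c y ∈ U`.  `q'` is coprime to `6^Δ`: Bezout `q' s + 6^Δ t = 1` in `ℤ`
  (`Int.gcd_eq_gcd_ab` / `Nat.Coprime`, `Int.isCoprime_iff_gcd_eq_one`).  Then `m - 6^Δ (s c y + t m) = s (q' m - 6^Δ c y) ∈ U`.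
* `s8c_round_step`: extract from `G` (cast to `ℚ`) a linearly independent family `u_1..u_r`, `r ≤ card κ`, with the same span (`exists_linearIndependent`);
  `m' - z = ∑ c_i u_i`; `m'' = m' - ∑ round (c_i) u_i`; `m'' - z = ∑ (c_i - round c_i) u_i`, `|c_i - round c_i| ≤ 1/2` (`abs_sub_round`).
-/
import Claimed.Agent.R258.S8c.Lin

set_option autoImplicit false

namespace Claimed.Agent.R258

open scoped BigOperators
open Classical

noncomputable section

/-- A nondecreasing sequence of subspaces of a `d`-dimensional space: all but `d R'` indices `h ≥ R'` satisfy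
`V (h - R') = V h`. -/
theorem s8c_rank_stable {E : Type*} [AddCommGroup E] [Module ℚ E] [FiniteDimensional ℚ E]
    (V : ℕ → Submodule ℚ E) (hV : Monotone V) (R' : ℕ) :
    ∃ Bad : Finset ℕ, Bad.card ≤ Module.finrank ℚ E * R' ∧ ∀ h, R' ≤ h → h ∉ Bad → V (h - R') = V h := by
  set n := Module.finrank ℚ E with hn
  set f : ℕ → ℕ := fun h => Module.finrank ℚ (V h) with hf
  have hfmono : Monotone f := fun i j hij => Submodule.finrank_mono (hV hij)
  have hfle : ∀ i, f i ≤ n := fun i => Submodule.finrank_le _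
  set jumps : Set ℕ := {i | V i ≠ V (i + 1)} with hj
  have hjump : ∀ i ∈ jumps, f i < f (i + 1) := by
    intro i hi
    exact Submodule.finrank_lt_finrank_of_lt (lt_of_le_of_ne (hV (Nat.le_succ i)) hi)
  have hmaps : Set.MapsTo f jumps (Finset.range n : Set ℕ) := by
    intro i hi
    simp only [Finset.coe_range, Set.mem_Iio]
    exact lt_of_lt_of_le (hjump i hi) (hfle _)
  have hinj : Set.InjOn f jumps := by
    intro i hi j hj' hij
    by_contra hne
    rcases lt_or_gt_of_ne hne with h | h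
    · have := lt_of_lt_of_le (hjump i hi) (hfmono (Nat.succ_le_of_lt h))
      omega
    · have := lt_of_lt_of_le (hjump j hj') (hfmono (Nat.succ_le_of_lt h))
      omega
  have hfin : jumps.Finite := Set.Finite.of_injOn hmaps hinj (Finset.finite_toSet _)
  have hcard : hfin.toFinset.card ≤ n := by
    have := Finset.card_le_card_of_injOn (s := hfin.toFinset) (t := Finset.range n) f
      (fun i hi => by
        have := hmaps (hfin.mem_toFinset.1 hi)
        simpa using this)
      (fun i hi j hj' h => hinj (hfin.mem_toFinset.1 (by simpa using hi)) (hfin.mem_toFinset.1 (by simpa using hj')) h)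
    simpa using this
  refine ⟨hfin.toFinset.biUnion fun i => Finset.Ioc i (i + R'), ?_, ?_⟩
  · refine (Finset.card_biUnion_le).trans ?_
    calc ∑ i ∈ hfin.toFinset, (Finset.Ioc i (i + R')).card = ∑ i ∈ hfin.toFinset, R' := by
          refine Finset.sum_congr rfl fun i _ => ?_
          simp
      _ = hfin.toFinset.card * R' := by simp
      _ ≤ n * R' := Nat.mul_le_mul_right _ hcard
  · intro h hR hbad
    -- no jump in `[h - R', h)`
    have hno : ∀ i, h - R' ≤ i → i < h → V i = V (i + 1) := by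
      intro i h1 h2
      by_contra hne
      apply hbad
      refine Finset.mem_biUnion.2 ⟨i, hfin.mem_toFinset.2 hne, Finset.mem_Ioc.2 ⟨h2, by omega⟩⟩
    have hall : ∀ k, k ≤ R' → V (h - R') = V (h - R' + k) := by
      intro k
      induction k with
      | zero => intro _; rfl
      | succ k ih =>
        intro hk
        rw [ih (by omega), hno (h - R' + k) (by omega) (by omega)]
        rfl
    have := hall R' le_rfl
    rwa [Nat.sub_add_cancel hR] at this

/-- divisibility step: `q m - 6^{R'} y ∈ U`, `q < 2^(R' - Δ)` ⇒ `m ≡ 6^Δ m'` modulo the rational space `U` for an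
integral `m'`.  (Write `q = 2^a 3^b q'`, divide by `2^a 3^b`, Bezout for `q'` and `6^Δ`.) -/
theorem s8c_div_step {κ : Type*} (U : Submodule ℚ (κ → ℚ)) (q Δ R' : ℕ) (hq : 0 < q) (hΔ : Δ ≤ R')
    (hqR : q < 2 ^ (R' - Δ)) (m y : κ → ℤ)
    (h : (fun i => (q : ℚ) * (m i : ℚ) - (6 : ℚ) ^ R' * (y i : ℚ)) ∈ U) :
    ∃ m' : κ → ℤ, (fun i => (m i : ℚ) - (6 : ℚ) ^ Δ * (m' i : ℚ)) ∈ U := by
  set N := R' - Δ with hN
  obtain ⟨a, q₂, h2, hq2⟩ := Nat.exists_eq_pow_mul_and_not_dvd hq.ne' 2 (by norm_num)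
  have hq₂ : q₂ ≠ 0 := by
    rintro rfl
    simp at h2
  obtain ⟨b, q', h3, hq3⟩ := Nat.exists_eq_pow_mul_and_not_dvd hq₂ 3 (by norm_num)
  have hq'0 : q' ≠ 0 := by
    rintro rfl
    simp at h3
  have h2' : ¬ 2 ∣ q' := fun hd => h2 (hq3 ▸ Dvd.dvd.mul_left hd _)
  have ha : a < N := by
    have h1 : 2 ^ a ≤ q := by
      rw [hq2]
      exact Nat.le_mul_of_pos_right _ (Nat.pos_of_ne_zero hq₂)
    exact (Nat.pow_lt_pow_iff_right (by norm_num)).1 (lt_of_le_of_lt h1 hqR)
  have hb : b < N := by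
    have h1 : 3 ^ b ≤ q := by
      rw [hq2, hq3]
      calc 3 ^ b ≤ 3 ^ b * q' := Nat.le_mul_of_pos_right _ (Nat.pos_of_ne_zero hq'0)
        _ ≤ 2 ^ a * (3 ^ b * q') := Nat.le_mul_of_pos_left _ (by positivity)
    have h4 : 2 ^ N ≤ 3 ^ N := Nat.pow_le_pow_left (by norm_num) N
    exact (Nat.pow_lt_pow_iff_right (by norm_num)).1 (lt_of_le_of_lt h1 (lt_of_lt_of_le hqR h4))
  have hcop : Nat.Coprime q' (6 ^ Δ) := by
    apply Nat.Coprime.pow_right
    have c2 : Nat.Coprime q' 2 := ((Nat.Prime.coprime_iff_not_dvd Nat.prime_two).2 h2').symm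
    have c3 : Nat.Coprime q' 3 := ((Nat.Prime.coprime_iff_not_dvd Nat.prime_three).2 h3).symm
    have : Nat.Coprime q' (2 * 3) := Nat.Coprime.mul_right c2 c3
    simpa using this
  obtain ⟨s, t, hst⟩ := Nat.isCoprime_iff_coprime.2 hcop
  have hbez : (s : ℚ) * (q' : ℚ) + (t : ℚ) * (6 : ℚ) ^ Δ = 1 := by
    have := congrArg (fun z : ℤ => (z : ℚ)) hst
    push_cast at this
    exact this
  set A : ℚ := (2 : ℚ) ^ a * (3 : ℚ) ^ b with hA
  have hA0 : A ≠ 0 := by positivity
  have hqc : (q : ℚ) = A * q' := by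
    rw [hq2, hq3]
    push_cast
    ring
  set c : ℤ := 2 ^ (N - a) * 3 ^ (N - b) with hc
  have h6 : (6 : ℚ) ^ R' = (6 : ℚ) ^ Δ * A * (c : ℚ) := by
    have e1 : R' = Δ + N := by omega
    have e2 : (6 : ℚ) ^ N = (2 : ℚ) ^ N * (3 : ℚ) ^ N := by
      rw [← mul_pow]; norm_num
    have e3 : (2 : ℚ) ^ N = (2 : ℚ) ^ a * (2 : ℚ) ^ (N - a) := by
      rw [← pow_add]; congr 1; omega
    have e4 : (3 : ℚ) ^ N = (3 : ℚ) ^ b * (3 : ℚ) ^ (N - b) := by
      rw [← pow_add]; congr 1; omega
    rw [e1, pow_add, e2, e3, e4, hc, hA]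
    push_cast
    ring
  refine ⟨fun i => s * c * y i + t * m i, ?_⟩
  have key : (fun i => (m i : ℚ) - (6 : ℚ) ^ Δ * ((s * c * y i + t * m i : ℤ) : ℚ))
      = ((s : ℚ) * A⁻¹) • (fun i => (q : ℚ) * (m i : ℚ) - (6 : ℚ) ^ R' * (y i : ℚ)) := by
    funext i
    simp only [Pi.smul_apply, smul_eq_mul]
    rw [hqc, h6]
    push_cast
    field_simp
    linear_combination (-(m i : ℚ)) * hbez
  rw [key]
  exact U.smul_mem _ h

/-- rounding step: modulo the span of integer vectors of size `≤ Bd`, an integer vector `m'` that is congruent to the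
rational vector `z` can be replaced by an integer vector within `dκ · Bd` of `z`. -/
theorem s8c_round_step {κ : Type*} [Fintype κ] (Bd : ℕ) (G : Set (κ → ℤ))
    (hG : ∀ u ∈ G, ∀ i, |u i| ≤ (Bd : ℤ)) (m' : κ → ℤ) (z : κ → ℚ)
    (h : (fun i => (m' i : ℚ) - z i) ∈
      Submodule.span ℚ ((fun u : κ → ℤ => fun i => (u i : ℚ)) '' G)) :
    ∃ m'' : κ → ℤ, (fun i => (m'' i : ℚ) - (m' i : ℚ)) ∈
        Submodule.span ℚ ((fun u : κ → ℤ => fun i => (u i : ℚ)) '' G) ∧
      ∀ i, |(m'' i : ℚ) - z i| ≤ (Fintype.card κ : ℚ) * Bd := by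
  set S : Set (κ → ℚ) := (fun u : κ → ℤ => fun i => (u i : ℚ)) '' G with hS
  obtain ⟨b, hbS, hspan, hli⟩ := exists_linearIndependent ℚ S
  have hfin : b.Finite := hli.setFinite
  set bf := hfin.toFinset with hbf
  have hcoe : (bf : Set (κ → ℚ)) = b := hfin.coe_toFinset
  have hcard : bf.card ≤ Fintype.card κ := by
    have hli' : LinearIndependent ℚ (fun x : bf => (x : κ → ℚ)) := by
      have : LinearIndependent ℚ (fun x : ((bf : Set (κ → ℚ)) : Type _) => (x : κ → ℚ)) := by rw [hcoe]; exact hli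
      exact this
    have := hli'.finset_card_le_finrank
    rwa [Module.finrank_fintype_fun_eq_card] at this
  rw [← hspan, ← hcoe, Submodule.mem_span_finset] at h
  obtain ⟨c, -, hc⟩ := h
  have hex : ∀ u ∈ bf, ∃ g ∈ G, (fun i => ((g i : ℤ) : ℚ)) = u := by
    intro u hu
    have : u ∈ S := hbS (hfin.mem_toFinset.1 hu)
    obtain ⟨g, hg, rfl⟩ := this
    exact ⟨g, hg, rfl⟩
  choose! gi hgiG hgi using hex
  refine ⟨fun i => m' i - ∑ u ∈ bf, round (c u) * gi u i, ?_, ?_⟩
  · have e : (fun i => ((m' i - ∑ u ∈ bf, round (c u) * gi u i : ℤ) : ℚ) - (m' i : ℚ))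
        = -∑ u ∈ bf, ((round (c u) : ℤ) : ℚ) • u := by
      funext i
      simp only [Pi.neg_apply, Finset.sum_apply, Pi.smul_apply, smul_eq_mul]
      push_cast
      rw [sub_sub_cancel_left]
      congr 1
      refine Finset.sum_congr rfl fun u hu => ?_
      rw [← congrFun (hgi u hu) i]
    rw [e]
    refine Submodule.neg_mem _ (Submodule.sum_mem _ fun u hu => Submodule.smul_mem _ _ (Submodule.subset_span ?_))
    exact hbS (hfin.mem_toFinset.1 hu)
  · intro i
    have e : ((m' i - ∑ u ∈ bf, round (c u) * gi u i : ℤ) : ℚ) - z i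
        = ∑ u ∈ bf, (c u - (round (c u) : ℤ)) * (gi u i : ℚ) := by
      have h1 := congrFun hc i
      simp only [Finset.sum_apply, Pi.smul_apply, smul_eq_mul] at h1
      push_cast
      have h2 : ∑ u ∈ bf, c u * u i = ∑ u ∈ bf, c u * (gi u i : ℚ) :=
        Finset.sum_congr rfl fun u hu => by rw [← congrFun (hgi u hu) i]
      rw [h2] at h1
      simp only [sub_mul, Finset.sum_sub_distrib]
      linarith
    rw [e]
    calc |∑ u ∈ bf, (c u - (round (c u) : ℤ)) * (gi u i : ℚ)|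
        ≤ ∑ u ∈ bf, |(c u - (round (c u) : ℤ)) * (gi u i : ℚ)| := Finset.abs_sum_le_sum_abs _ _
      _ ≤ ∑ u ∈ bf, (1 : ℚ) * Bd := by
          refine Finset.sum_le_sum fun u hu => ?_
          rw [abs_mul]
          have h1 : |c u - (round (c u) : ℤ)| ≤ 1 := (abs_sub_round (c u)).trans (by norm_num)
          have h2 : |(gi u i : ℚ)| ≤ (Bd : ℚ) := by
            have := hG (gi u) (hgiG u hu) i
            exact_mod_cast this
          exact mul_le_mul h1 h2 (abs_nonneg _) zero_le_one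
      _ = (bf.card : ℚ) * Bd := by simp
      _ ≤ (Fintype.card κ : ℚ) * Bd := by
          have : (bf.card : ℚ) ≤ Fintype.card κ := by exact_mod_cast hcard
          exact mul_le_mul_of_nonneg_right this (Nat.cast_nonneg _)

end

end Claimed.Agent.R258
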