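/-
Row 258 (S0498).  Block [S8c], architect helper61.  File Stab.lean: the algebraic core of Lemma 8.3 (assembly).  Mathlib only, NO paper needed.

LEAF P-S8c-STAB: PROVED (helper254); `s8c_cramer`, `s8c_rank_stable`, `s8c_div_step`, `s8c_round_step` are black boxes.
PLAN.  `E i = A0^(i+1)`, `dι = card ι`, `dκ = card κ`.
 `SV i = {q' | s8cHtLe D q' ∧ s8cReach K emb i (D * E i) q'}`, `V i = span ℚ (SV i)`;
 `GU i = {u : κ → ℤ | emb (u cast) ∈ K ∧ ∀ x, |u x| ≤ Cs^3 * D * E i}`, `U i = span ℚ (cast '' GU i)`.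
 Both are monotone (`m ↦ 6 m`, `m/6^i = 6m/6^(i+1)`, `6 D E i ≤ D E (i+1)` since `A0 ≥ 6`; `E i ≤ E (i+1)`).
 `Bad = range R' ∪ BadV ∪ BadU` from `s8c_rank_stable` (`finrank (ι → ℚ) = dι`), cardinality `≤ R' + dι R' + dκ R'`.
 Let `h ∉ Bad`: `R' ≤ h`, `V (h-R') = V h`, `U (h-R') = U h =: U`; every element `w` of `U` has `emb w ∈ K` (span induction).
 Let `a + emb (m_h/6^h) ∈ K`, `|m_h| ≤ D E h`.  Then `a ∈ V h = span (SV (h-R'))`; Cramer with `H = D`: `q a = ∑_{j<k} b_j v_j`, `k ≤ dι`, `1 ≤ q ≤ Cs`, `|b_j| ≤ Cs`,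
 `v_j + emb (m_j/6^(h-R')) ∈ K`, `|m_j| ≤ D E (h-R')`.  Put `y = ∑ b_j m_j ∈ ℤ^κ`, `|y| ≤ dι Cs D E (h-R')`.
 (1) `6^h • [q (a + emb (m_h/6^h)) - ∑ b_j (v_j + emb (m_j/6^(h-R')))] = emb (q m_h - 6^R' y) ∈ K`, and
     `|q m_h - 6^R' y| ≤ Cs D E h + 6^R' dι Cs D E (h-R') ≤ (1 + dι) Cs D E h ≤ Cs^3 D E h` (`E h = A0^R' E (h-R') ≥ 6^R' E (h-R')`, field `cube`): it is in `GU h`, so in `U`.
 (2) `s8c_div_step` (`q ≤ Cs < 2^(R'-Δ)`): `m'` with `m_h - 6^Δ m' ∈ U`.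
 (3) `z = 6^(R'-Δ) y / q`.  `6^Δ q (m' - z) = (q m_h - 6^R' y) - q (m_h - 6^Δ m') ∈ U`, so `m' - z ∈ U = span (cast '' GU (h-R'))`.
 (4) `s8c_round_step` with `Bd = Cs^3 D E (h-R')`: `m''`, `m'' - m' ∈ U`, `|m'' - z| ≤ dκ Bd`; hence
     `|m''| ≤ 6^(R'-Δ) dι Cs D E (h-R') + dκ Cs^3 D E (h-R') ≤ A0^(R'-Δ) E (h-R') = E (h-Δ)` (field `A0_big`).
 (5) `m_h - 6^Δ m'' ∈ U`, so `emb ((m_h - 6^Δ m'')/6^h) ∈ K` and `a + emb (m''/6^(h-Δ)) = (a + emb (m_h/6^h)) - emb ((m_h - 6^Δ m'')/6^h) ∈ K`.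
-/
import Claimed.Agent.R258.S8c.Cramer
import Claimed.Agent.R258.S8c.StabA

set_option autoImplicit false

namespace Claimed.Agent.R258

open scoped BigOperators
open Classical

noncomputable section

/-- the vectors of height `≤ D` reachable at height `i` with shifts `≤ D E_i` -/
def s8cSV {ι κ : Type*} (K : Submodule ℚ (ι → ℚ)) (emb : (κ → ℚ) →ₗ[ℚ] (ι → ℚ)) (D A0 i : ℕ) : Set (ι → ℚ) :=
  {v | s8cHtLe D v ∧ s8cReach K emb i (D * A0 ^ (i + 1)) v}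

/-- the integral horizontal vectors of `K_B` of size `≤ Cs³ D E_i` -/
def s8cGU {ι κ : Type*} (K : Submodule ℚ (ι → ℚ)) (emb : (κ → ℚ) →ₗ[ℚ] (ι → ℚ)) (D Cs A0 i : ℕ) : Set (κ → ℤ) :=
  {u | emb (fun x => (u x : ℚ)) ∈ K ∧ ∀ x, |u x| ≤ ((Cs ^ 3 * D * A0 ^ (i + 1) : ℕ) : ℤ)}

theorem s8c_SV_mono {ι κ : Type*} (K : Submodule ℚ (ι → ℚ)) (emb : (κ → ℚ) →ₗ[ℚ] (ι → ℚ)) (D A0 : ℕ) (hA : 6 ≤ A0) :
    Monotone fun i => Submodule.span ℚ (s8cSV K emb D A0 i) := by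
  refine monotone_nat_of_le_succ fun i => Submodule.span_mono ?_
  rintro v ⟨hht, m, hm, hmem⟩
  refine ⟨hht, fun x => 6 * m x, fun x => ?_, ?_⟩
  · have h1 := hm x
    have h2 : ((D * A0 ^ (i + 1 + 1) : ℕ) : ℤ) = (A0 : ℤ) * ((D * A0 ^ (i + 1) : ℕ) : ℤ) := by
      push_cast; ring
    have h3 : (6 : ℤ) ≤ (A0 : ℤ) := by exact_mod_cast hA
    rw [abs_mul, h2]
    have h4 : |(6 : ℤ)| = 6 := by norm_num
    rw [h4]
    exact mul_le_mul h3 h1 (abs_nonneg _) (by positivity)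
  · have e : (fun x => (((6 * m x : ℤ)) : ℚ) / (6 : ℚ) ^ (i + 1)) = fun x => (m x : ℚ) / (6 : ℚ) ^ i := by
      funext x
      push_cast
      rw [pow_succ]
      field_simp
    rw [e]
    exact hmem

theorem s8c_GU_mono {ι κ : Type*} (K : Submodule ℚ (ι → ℚ)) (emb : (κ → ℚ) →ₗ[ℚ] (ι → ℚ)) (D Cs A0 : ℕ) (hA : 6 ≤ A0) :
    Monotone fun i => Submodule.span ℚ ((fun u : κ → ℤ => fun x => (u x : ℚ)) '' s8cGU K emb D Cs A0 i) := by
  refine monotone_nat_of_le_succ fun i => Submodule.span_mono (Set.image_mono ?_)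
  rintro u ⟨h1, h2⟩
  refine ⟨h1, fun x => (h2 x).trans ?_⟩
  have : Cs ^ 3 * D * A0 ^ (i + 1) ≤ Cs ^ 3 * D * A0 ^ (i + 1 + 1) :=
    Nat.mul_le_mul_left _ (Nat.pow_le_pow_right (by omega) (by omega))
  exact_mod_cast this

theorem s8c_GU_le {ι κ : Type*} (K : Submodule ℚ (ι → ℚ)) (emb : (κ → ℚ) →ₗ[ℚ] (ι → ℚ)) (D Cs A0 i : ℕ) :
    Submodule.span ℚ ((fun u : κ → ℤ => fun x => (u x : ℚ)) '' s8cGU K emb D Cs A0 i) ≤ K.comap emb := by
  refine Submodule.span_le.2 ?_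
  rintro _ ⟨u, hu, rfl⟩
  exact hu.1

theorem s8c_stab_core {ι κ : Type*} [Fintype ι] [Fintype κ] (K : Submodule ℚ (ι → ℚ))
    (emb : (κ → ℚ) →ₗ[ℚ] (ι → ℚ)) (D Cs A0 Δ R' : ℕ)
    (par : S8cStabPar (Fintype.card ι) (Fintype.card κ) D Cs A0 Δ R') (h : ℕ) (hR : R' ≤ h)
    (hV : Submodule.span ℚ (s8cSV K emb D A0 (h - R')) = Submodule.span ℚ (s8cSV K emb D A0 h))
    (hU : Submodule.span ℚ ((fun u : κ → ℤ => fun x => (u x : ℚ)) '' s8cGU K emb D Cs A0 (h - R'))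
      = Submodule.span ℚ ((fun u : κ → ℤ => fun x => (u x : ℚ)) '' s8cGU K emb D Cs A0 h))
    (a : ι → ℚ) (hht : s8cHtLe D a) (hreach : s8cReach K emb h (D * A0 ^ (h + 1)) a) :
    s8cReach K emb (h - Δ) (A0 ^ (h - Δ + 1)) a := by
  set dι := Fintype.card ι with hdι
  set dκ := Fintype.card κ with hdκ
  set U := Submodule.span ℚ ((fun u : κ → ℤ => fun x => (u x : ℚ)) '' s8cGU K emb D Cs A0 h) with hUdef
  have hUK : ∀ w ∈ U, emb w ∈ K := fun w hw => s8c_GU_le K emb D Cs A0 h hw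
  have hΔR : Δ < R' := par.Δ_lt
  set Eh : ℕ := A0 ^ (h + 1) with hEh
  set Er : ℕ := A0 ^ (h - R' + 1) with hEr
  -- numerics
  have hN1 : 6 ^ R' * Er ≤ Eh := by
    have e : Eh = A0 ^ R' * Er := by
      rw [hEh, hEr, ← pow_add]; congr 1; omega
    rw [e]
    exact Nat.mul_le_mul_right _ (Nat.pow_le_pow_left par.A0_ge _)
  have hN2 : A0 ^ (R' - Δ) * Er = A0 ^ (h - Δ + 1) := by
    rw [hEr, ← pow_add]; congr 1; omega
  have ha : a ∈ Submodule.span ℚ (s8cSV K emb D A0 (h - R')) := by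
    rw [hV]
    exact Submodule.subset_span ⟨hht, hreach⟩
  obtain ⟨mh, hmh, hmem⟩ := hreach
  obtain ⟨k, v, q, b, hk, hvS, -, hq0, hqle, hb, hqa⟩ :=
    s8c_cramer D par.D_pos (s8cSV K emb D A0 (h - R')) (fun v hv => hv.1) a hht ha
  have hqCs : q ≤ Cs := hqle.trans par.Cs_ge
  have hbCs : ∀ j, |b j| ≤ (Cs : ℤ) := fun j => (hb j).trans (by exact_mod_cast par.Cs_ge)
  choose mm hmm hmmK using fun j => (hvS j).2
  set y : κ → ℤ := fun x => ∑ j, b j * mm j x with hy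
  have hybd : ∀ x, |y x| ≤ ((dι * Cs * D * Er : ℕ) : ℤ) := by
    intro x
    calc |y x| ≤ ∑ j, |b j * mm j x| := Finset.abs_sum_le_sum_abs _ _
      _ ≤ ∑ _j : Fin k, (Cs : ℤ) * ((D * Er : ℕ) : ℤ) := by
          refine Finset.sum_le_sum fun j _ => ?_
          rw [abs_mul]
          exact mul_le_mul (hbCs j) (hmm j x) (abs_nonneg _) (by positivity)
      _ = (k : ℤ) * ((Cs : ℤ) * ((D * Er : ℕ) : ℤ)) := by simp
      _ ≤ (dι : ℤ) * ((Cs : ℤ) * ((D * Er : ℕ) : ℤ)) := by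
          have : (k : ℤ) ≤ (dι : ℤ) := by exact_mod_cast hk
          exact mul_le_mul_of_nonneg_right this (by positivity)
      _ = ((dι * Cs * D * Er : ℕ) : ℤ) := by push_cast; ring
  -- (1)
  set X : κ → ℚ := fun x => (mh x : ℚ) / (6 : ℚ) ^ h with hX
  set Xj : Fin k → κ → ℚ := fun j x => (mm j x : ℚ) / (6 : ℚ) ^ (h - R') with hXj
  have hT : emb ((q : ℚ) • X - ∑ j, (b j : ℚ) • Xj j) ∈ K := by
    have h1 : (q : ℚ) • (a + emb X) - ∑ j, (b j : ℚ) • (v j + emb (Xj j)) ∈ K :=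
      K.sub_mem (K.smul_mem _ hmem) (K.sum_mem fun j _ => K.smul_mem _ (hmmK j))
    have e : (q : ℚ) • (a + emb X) - ∑ j, (b j : ℚ) • (v j + emb (Xj j)) = emb ((q : ℚ) • X - ∑ j, (b j : ℚ) • Xj j) := by
      simp only [smul_add, Finset.sum_add_distrib, map_sub, map_smul, map_sum]
      rw [hqa]
      abel
    rwa [e] at h1
  set w1 : κ → ℤ := fun x => (q : ℤ) * mh x - 6 ^ R' * y x with hw1
  have h6 : (6 : ℚ) ^ h = (6 : ℚ) ^ R' * (6 : ℚ) ^ (h - R') := by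
    rw [← pow_add]; congr 1; omega
  have hw1e : (fun x => (w1 x : ℚ)) = ((6 : ℚ) ^ h) • ((q : ℚ) • X - ∑ j, (b j : ℚ) • Xj j) := by
    funext x
    simp only [hw1, hy, hX, hXj, Pi.smul_apply, Pi.sub_apply, Finset.sum_apply, smul_eq_mul]
    push_cast
    rw [mul_sub, Finset.mul_sum, Finset.mul_sum]
    congr 1
    · field_simp
    · refine Finset.sum_congr rfl fun j _ => ?_
      rw [h6]
      field_simp
  have hw1K : emb (fun x => (w1 x : ℚ)) ∈ K := by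
    rw [hw1e, map_smul]
    exact K.smul_mem _ hT
  have hw1bd : ∀ x, |w1 x| ≤ ((Cs ^ 3 * D * Eh : ℕ) : ℤ) := by
    intro x
    have h1 : |(q : ℤ) * mh x| ≤ (Cs : ℤ) * ((D * Eh : ℕ) : ℤ) := by
      rw [abs_mul, abs_of_nonneg (by positivity : (0 : ℤ) ≤ (q : ℤ))]
      exact mul_le_mul (by exact_mod_cast hqCs) (hmh x) (abs_nonneg _) (by positivity)
    have h2 : |(6 : ℤ) ^ R' * y x| ≤ (6 : ℤ) ^ R' * ((dι * Cs * D * Er : ℕ) : ℤ) := by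
      rw [abs_mul, abs_of_nonneg (by positivity : (0 : ℤ) ≤ (6 : ℤ) ^ R')]
      exact mul_le_mul_of_nonneg_left (hybd x) (by positivity)
    have h3 : Cs * (D * Eh) + 6 ^ R' * (dι * Cs * D * Er) ≤ Cs ^ 3 * D * Eh := by
      calc Cs * (D * Eh) + 6 ^ R' * (dι * Cs * D * Er) = Cs * (D * Eh) + dι * Cs * D * (6 ^ R' * Er) := by ring
        _ ≤ Cs * (D * Eh) + dι * Cs * D * Eh := Nat.add_le_add_left (Nat.mul_le_mul_left _ hN1) _
        _ = ((1 + dι) * Cs) * (D * Eh) := by ring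
        _ ≤ Cs ^ 3 * (D * Eh) := Nat.mul_le_mul_right _ par.cube
        _ = Cs ^ 3 * D * Eh := by ring
    calc |w1 x| ≤ |(q : ℤ) * mh x| + |(6 : ℤ) ^ R' * y x| := abs_sub _ _
      _ ≤ (Cs : ℤ) * ((D * Eh : ℕ) : ℤ) + (6 : ℤ) ^ R' * ((dι * Cs * D * Er : ℕ) : ℤ) := add_le_add h1 h2
      _ ≤ ((Cs ^ 3 * D * Eh : ℕ) : ℤ) := by exact_mod_cast h3
  have hw1U : (fun x => (w1 x : ℚ)) ∈ U := Submodule.subset_span ⟨w1, ⟨hw1K, hw1bd⟩, rfl⟩
  have hw1U' : (fun i => (q : ℚ) * (mh i : ℚ) - (6 : ℚ) ^ R' * (y i : ℚ)) ∈ U := by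
    have e : (fun i => (q : ℚ) * (mh i : ℚ) - (6 : ℚ) ^ R' * (y i : ℚ)) = fun x => (w1 x : ℚ) := by
      funext x
      simp only [hw1]
      push_cast
      ring
    rw [e]; exact hw1U
  -- (2)
  obtain ⟨m', hm'⟩ := s8c_div_step U q Δ R' hq0 hΔR.le (lt_of_le_of_lt hqCs par.Cs_lt) mh y hw1U'
  -- (3)
  have hq0' : (q : ℚ) ≠ 0 := by exact_mod_cast hq0.ne'
  set z : κ → ℚ := fun x => (6 : ℚ) ^ (R' - Δ) * (y x : ℚ) / (q : ℚ) with hz
  have h6' : (6 : ℚ) ^ R' = (6 : ℚ) ^ Δ * (6 : ℚ) ^ (R' - Δ) := by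
    rw [← pow_add]; congr 1; omega
  have hmz : (fun i => (m' i : ℚ) - z i) ∈ U := by
    have e : (fun i => (m' i : ℚ) - z i) = (((6 : ℚ) ^ Δ * (q : ℚ))⁻¹) •
        ((fun i => (q : ℚ) * (mh i : ℚ) - (6 : ℚ) ^ R' * (y i : ℚ)) - (q : ℚ) • fun i => (mh i : ℚ) - (6 : ℚ) ^ Δ * (m' i : ℚ)) := by
      funext x
      simp only [hz, Pi.smul_apply, Pi.sub_apply, smul_eq_mul]
      rw [h6']
      field_simp
      ring
    rw [e]
    exact U.smul_mem _ (U.sub_mem hw1U' (U.smul_mem _ hm'))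
  -- (4)
  rw [← hU] at hmz
  obtain ⟨m'', hm''U, hm''bd⟩ := s8c_round_step (Cs ^ 3 * D * Er) (s8cGU K emb D Cs A0 (h - R')) (fun u hu => hu.2) m' z hmz
  rw [hU] at hm''U
  refine ⟨m'', fun x => ?_, ?_⟩
  · have hzbd : |z x| ≤ (6 : ℚ) ^ (R' - Δ) * ((dι * Cs * D * Er : ℕ) : ℚ) := by
      simp only [hz]
      rw [abs_div, abs_mul, abs_of_nonneg (by positivity : (0 : ℚ) ≤ (6 : ℚ) ^ (R' - Δ)),
        abs_of_nonneg (by positivity : (0 : ℚ) ≤ (q : ℚ))]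
      have h1 : |(y x : ℚ)| ≤ ((dι * Cs * D * Er : ℕ) : ℚ) := by exact_mod_cast hybd x
      have h2 : (1 : ℚ) ≤ (q : ℚ) := by exact_mod_cast hq0
      calc (6 : ℚ) ^ (R' - Δ) * |(y x : ℚ)| / (q : ℚ) ≤ (6 : ℚ) ^ (R' - Δ) * |(y x : ℚ)| :=
            div_le_self (by positivity) h2
        _ ≤ _ := mul_le_mul_of_nonneg_left h1 (by positivity)
    have h3 : 6 ^ (R' - Δ) * (dι * Cs * D * Er) + dκ * (Cs ^ 3 * D * Er) ≤ A0 ^ (h - Δ + 1) := by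
      rw [← hN2]
      calc 6 ^ (R' - Δ) * (dι * Cs * D * Er) + dκ * (Cs ^ 3 * D * Er)
          = (6 ^ (R' - Δ) * dι * Cs * D + dκ * Cs ^ 3 * D) * Er := by ring
        _ ≤ A0 ^ (R' - Δ) * Er := Nat.mul_le_mul_right _ par.A0_big
    have h4 : |(m'' x : ℚ)| ≤ ((A0 ^ (h - Δ + 1) : ℕ) : ℚ) := by
      calc |(m'' x : ℚ)| = |((m'' x : ℚ) - z x) + z x| := by rw [sub_add_cancel]
        _ ≤ |(m'' x : ℚ) - z x| + |z x| := abs_add_le _ _
        _ ≤ (dκ : ℚ) * ((Cs ^ 3 * D * Er : ℕ) : ℚ) + (6 : ℚ) ^ (R' - Δ) * ((dι * Cs * D * Er : ℕ) : ℚ) :=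
            add_le_add (hm''bd x) hzbd
        _ ≤ ((A0 ^ (h - Δ + 1) : ℕ) : ℚ) := by
            have := h3
            have h5 : ((6 ^ (R' - Δ) * (dι * Cs * D * Er) + dκ * (Cs ^ 3 * D * Er) : ℕ) : ℚ) ≤ ((A0 ^ (h - Δ + 1) : ℕ) : ℚ) := by
              exact_mod_cast h3
            refine le_trans (le_of_eq ?_) h5
            push_cast
            ring
    exact_mod_cast h4
  · -- (5)
    have hw5 : (fun i => (mh i : ℚ) - (6 : ℚ) ^ Δ * (m'' i : ℚ)) ∈ U := by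
      have e : (fun i => (mh i : ℚ) - (6 : ℚ) ^ Δ * (m'' i : ℚ))
          = (fun i => (mh i : ℚ) - (6 : ℚ) ^ Δ * (m' i : ℚ)) - ((6 : ℚ) ^ Δ) • fun i => (m'' i : ℚ) - (m' i : ℚ) := by
        funext x
        simp only [Pi.smul_apply, Pi.sub_apply, smul_eq_mul]
        ring
      rw [e]
      exact U.sub_mem hm' (U.smul_mem _ hm''U)
    have h6'' : (6 : ℚ) ^ h = (6 : ℚ) ^ Δ * (6 : ℚ) ^ (h - Δ) := by
      rw [← pow_add]; congr 1; omega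
    have e : a + emb (fun i => (m'' i : ℚ) / (6 : ℚ) ^ (h - Δ))
        = (a + emb X) - (((6 : ℚ) ^ h)⁻¹) • emb (fun i => (mh i : ℚ) - (6 : ℚ) ^ Δ * (m'' i : ℚ)) := by
      rw [← map_smul, add_sub_assoc, ← map_sub]
      congr 2
      funext x
      simp only [hX, Pi.smul_apply, Pi.sub_apply, smul_eq_mul]
      rw [h6'']
      field_simp
      ring
    rw [e]
    exact K.sub_mem hmem (K.smul_mem _ (hUK _ hw5))

/-- **Lemma 8.3, algebraic core.**  All but `(dι + dκ + 1) R'` heights `h` are stable: `Δ ≤ h`, and every vector of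
height `≤ D` that is reachable at height `h` with shifts `≤ D E_h` is reachable at height `h - Δ` with shifts
`≤ E_{h-Δ}`.  The exceptional set depends only on `K`, `emb` and the parameters. -/
theorem s8c_height_stab {ι κ : Type*} [Fintype ι] [Fintype κ] (K : Submodule ℚ (ι → ℚ))
    (emb : (κ → ℚ) →ₗ[ℚ] (ι → ℚ)) (D Cs A0 Δ R' : ℕ)
    (par : S8cStabPar (Fintype.card ι) (Fintype.card κ) D Cs A0 Δ R') :
    ∃ Bad : Finset ℕ, Bad.card ≤ (Fintype.card ι + Fintype.card κ + 1) * R' ∧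
      ∀ h, h ∉ Bad → Δ ≤ h ∧ ∀ a : ι → ℚ, s8cHtLe D a →
        s8cReach K emb h (D * A0 ^ (h + 1)) a → s8cReach K emb (h - Δ) (A0 ^ (h - Δ + 1)) a := by
  obtain ⟨BadV, hBV, hV⟩ := s8c_rank_stable _ (s8c_SV_mono K emb D A0 par.A0_ge) R'
  obtain ⟨BadU, hBU, hU⟩ := s8c_rank_stable _ (s8c_GU_mono K emb D Cs A0 par.A0_ge) R'
  rw [Module.finrank_fintype_fun_eq_card] at hBV hBU
  refine ⟨Finset.range R' ∪ BadV ∪ BadU, ?_, ?_⟩
  · calc (Finset.range R' ∪ BadV ∪ BadU).card ≤ (Finset.range R' ∪ BadV).card + BadU.card := Finset.card_union_le _ _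
      _ ≤ (Finset.range R').card + BadV.card + BadU.card := Nat.add_le_add_right (Finset.card_union_le _ _) _
      _ ≤ R' + Fintype.card ι * R' + Fintype.card κ * R' := by
          rw [Finset.card_range]
          exact Nat.add_le_add (Nat.add_le_add_left hBV _) hBU
      _ = (Fintype.card ι + Fintype.card κ + 1) * R' := by ring
  · intro h hh
    simp only [Finset.mem_union, Finset.mem_range, not_or, not_lt] at hh
    obtain ⟨⟨hR, h1⟩, h2⟩ := hh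
    refine ⟨par.Δ_lt.le.trans hR, fun a hht hreach => ?_⟩
    exact s8c_stab_core K emb D Cs A0 Δ R' par h hR (hV h hR h1) (hU h hR h2) a hht hreach

end

end Claimed.Agent.R258
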