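/-
Row 258 (S0498).  Block [S8c], architect helper61.  File Dens.lean: Lemma 8.6 (bad-density chains).  Mathlib only, NO paper needed.

LEAF P-S8c-DENS = the `sorry` of this file.
PLAN (double counting of the bad incidences `(i,h)`, `i < N`, `h ≤ J`).  Put `p i h = s8cLog |Pp i h|`, `c i h = s8cLog |Cc i h|`,
`L = s8cLog M`; all are `≤ L`, monotone in `h`, and `p i h ≤ c i h ≤ p (i+1) h` (`s8c_log_mono`, `Finset.card_le_card`).
The indicator of `s8cBad` at `(i,h)` is at most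
  `[h < Δ] + [Δ ≤ h] (c i h - p i (h-Δ)) + β⁻¹ (|X i ∩ Cc i h| / |Cc i h| + |Y i h ∩ Cc i h| / |Cc i h|)`.
(1) `∑_h [h<Δ] ≤ Δ`.  (2) `c i h - p i (h-Δ) = (p i h - p i (h-Δ)) + (c i h - p i h)`; at fixed `i`,
`∑_{Δ ≤ h ≤ J} (p i h - p i (h-Δ)) ≤ Δ L` (telescoping in each residue class / sum of the last `Δ` values minus the first `Δ` values);
at fixed `h`, `∑_{i<N} (c i h - p i h) ≤ ∑ (p (i+1) h - p i h) + … ≤ L` (telescoping).
(3) at fixed `i`: `s8c_entry_rank` with `T = J+1`, `S h = Cc i h`, `X h = Y i h ∩ Cc i h`, multiplicity `A`: `≤ A H_M`.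
(4) at fixed `h`: `s8c_entry_rank` with `T = N`, `S i = Cc i h` (increasing in `i` by `hPC`, `hCP`), `X i ∩ Cc i h`, multiplicity `B`: `≤ B H_M`.
Total: `δ N (J+1) < #bad ≤ N Q + (J+1)(L + β⁻¹ B H_M)`, `Q = Δ(L+1) + β⁻¹ A H_M`, and `N Q ≤ δ N (J+1)/2` by `hJbig`.
(`N = 0` is trivial.)
-/
import Claimed.Agent.R258.S8c.Rank

set_option autoImplicit false

namespace Claimed.Agent.R258

open scoped BigOperators
open Classical

noncomputable section

theorem s8c_shift_sum (p : ℕ → ℝ) (Δ K : ℕ) (L : ℝ) (h0 : ∀ h < Δ + K, 0 ≤ p h)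
    (h1 : ∀ h < Δ + K, p h ≤ L) : ∑ x ∈ Finset.range K, (p (Δ + x) - p x) ≤ Δ * L := by
  have e1 := Finset.sum_range_add p Δ K
  have e2 := Finset.sum_range_add p K Δ
  rw [add_comm K Δ] at e2
  have e3 : ∑ x ∈ Finset.range Δ, p (K + x) ≤ ∑ _x ∈ Finset.range Δ, L :=
    Finset.sum_le_sum fun x hx => h1 _ (by rw [Finset.mem_range] at hx; omega)
  rw [Finset.sum_const, Finset.card_range, nsmul_eq_mul] at e3
  have e4 : 0 ≤ ∑ x ∈ Finset.range Δ, p x :=
    Finset.sum_nonneg fun x hx => h0 _ (by rw [Finset.mem_range] at hx; omega)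
  rw [Finset.sum_sub_distrib]
  linarith

theorem s8c_tele_aux (c p : ℕ → ℝ) (n : ℕ) (h0 : ∀ i < n + 1, 0 ≤ p i)
    (h1 : ∀ i, i + 1 < n + 1 → c i ≤ p (i + 1)) :
    ∑ i ∈ Finset.range (n + 1), (c i - p i) ≤ c n := by
  induction n with
  | zero =>
    simp only [zero_add, Finset.range_one, Finset.sum_singleton]
    linarith [h0 0 (by omega)]
  | succ n ih =>
    rw [Finset.sum_range_succ]
    have := ih (fun i hi => h0 i (by omega)) (fun i hi => h1 i (by omega))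
    have := h1 n (by omega)
    linarith

theorem s8c_tele (c p : ℕ → ℝ) (N : ℕ) (L : ℝ) (hL : 0 ≤ L) (h0 : ∀ i < N, 0 ≤ p i)
    (h1 : ∀ i, i + 1 < N → c i ≤ p (i + 1)) (h2 : ∀ i < N, c i ≤ L) :
    ∑ i ∈ Finset.range N, (c i - p i) ≤ L := by
  cases N with
  | zero => simpa using hL
  | succ n => exact (s8c_tele_aux c p n h0 h1).trans (h2 n (by omega))

/-- **Lemma 8.6** (bad-density chains).  Positions `i < N`, heights `h ≤ J`. -/
theorem s8c_bad_density_chain {α : Type*} (δ β : ℝ) (hδ : 0 < δ) (hβ : 0 < β)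
    (J Δ M N A B : ℕ) (hJ : Δ ≤ J)
    (Pp Cc : ℕ → ℕ → Finset α) (X : ℕ → Finset α) (Y : ℕ → ℕ → Finset α)
    (hPne : ∀ i < N, ∀ h ≤ J, (Pp i h).Nonempty)
    (hPmono : ∀ i < N, ∀ h h', h ≤ h' → h' ≤ J → Pp i h ⊆ Pp i h')
    (hCmono : ∀ i < N, ∀ h h', h ≤ h' → h' ≤ J → Cc i h ⊆ Cc i h')
    (hCcard : ∀ i < N, ∀ h ≤ J, (Cc i h).card ≤ M)
    (hPC : ∀ i < N, ∀ h ≤ J, Pp i h ⊆ Cc i h)
    (hCP : ∀ i, i + 1 < N → ∀ h ≤ J, Cc i h ⊆ Pp (i + 1) h)
    (hX : ∀ a, ((Finset.range N).filter (fun i => a ∈ X i)).card ≤ B)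
    (hY : ∀ i < N, ∀ a, ((Finset.range (J + 1)).filter (fun h => a ∈ Y i h)).card ≤ A)
    (hbad : ∀ i < N, δ * ((J : ℝ) + 1) <
      (((Finset.range (J + 1)).filter (fun h => s8cBad β Δ (Pp i) (Cc i) (X i) (Y i) h)).card : ℝ))
    (hJbig : 2 * ((Δ : ℝ) * ((s8cLog M : ℝ) + 1) + β⁻¹ * A * (harmonic M : ℝ)) / δ ≤ (J : ℝ) + 1) :
    (N : ℝ) ≤ 2 / δ * ((s8cLog M : ℝ) + β⁻¹ * B * (harmonic M : ℝ)) := by
  obtain ⟨L, hL⟩ : ∃ L : ℝ, L = (s8cLog M : ℝ) := ⟨_, rfl⟩
  obtain ⟨Hm, hHm⟩ : ∃ Hm : ℝ, Hm = (harmonic M : ℝ) := ⟨_, rfl⟩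
  rw [← hL, ← hHm] at hJbig ⊢
  have hL0 : 0 ≤ L := by rw [hL]; exact Nat.cast_nonneg _
  have hHm0 : 0 ≤ Hm := by
    rw [hHm]
    have := s8c_harmonic_mono (Nat.zero_le M)
    simpa using this
  have hβi : 0 < β⁻¹ := inv_pos.2 hβ
  obtain ⟨K, hK⟩ : ∃ K, J + 1 = Δ + K := ⟨J + 1 - Δ, by omega⟩
  obtain ⟨pr, hpr⟩ : ∃ pr : ℕ → ℕ → ℝ, ∀ i h, pr i h = (s8cLog (Pp i h).card : ℝ) := ⟨_, fun _ _ => rfl⟩
  obtain ⟨cr, hcr⟩ : ∃ cr : ℕ → ℕ → ℝ, ∀ i h, cr i h = (s8cLog (Cc i h).card : ℝ) := ⟨_, fun _ _ => rfl⟩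
  obtain ⟨xr, hxr⟩ : ∃ xr : ℕ → ℕ → ℝ, ∀ i h, xr i h = ((X i ∩ Cc i h).card : ℝ) / ((Cc i h).card : ℝ) :=
    ⟨_, fun _ _ => rfl⟩
  obtain ⟨yr, hyr⟩ : ∃ yr : ℕ → ℕ → ℝ, ∀ i h, yr i h = ((Y i h ∩ Cc i h).card : ℝ) / ((Cc i h).card : ℝ) :=
    ⟨_, fun _ _ => rfl⟩
  have hpr0 : ∀ i h, 0 ≤ pr i h := fun i h => by rw [hpr]; exact Nat.cast_nonneg _
  have hxr0 : ∀ i h, 0 ≤ xr i h := fun i h => by rw [hxr]; positivity
  have hyr0 : ∀ i h, 0 ≤ yr i h := fun i h => by rw [hyr]; positivity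
  have hcrL : ∀ i < N, ∀ h ≤ J, cr i h ≤ L := by
    intro i hi h hh
    rw [hcr, hL]
    exact_mod_cast s8c_log_mono (hCcard i hi h hh)
  have hpc : ∀ i < N, ∀ h ≤ J, pr i h ≤ cr i h := by
    intro i hi h hh
    rw [hcr, hpr]
    exact_mod_cast s8c_log_mono (Finset.card_le_card (hPC i hi h hh))
  have hprL : ∀ i < N, ∀ h ≤ J, pr i h ≤ L := fun i hi h hh => (hpc i hi h hh).trans (hcrL i hi h hh)
  have hcp : ∀ i, i + 1 < N → ∀ h ≤ J, cr i h ≤ pr (i + 1) h := by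
    intro i hi h hh
    rw [hcr, hpr]
    exact_mod_cast s8c_log_mono (Finset.card_le_card (hCP i hi h hh))
  have hCpos : ∀ i < N, ∀ h ≤ J, (0 : ℝ) < ((Cc i h).card : ℝ) := by
    intro i hi h hh
    exact_mod_cast ((hPne i hi h hh).mono (hPC i hi h hh)).card_pos
  -- the natural number inequality behind the second term
  have hlogle : ∀ i < N, ∀ h ≤ J, s8cLog (Pp i (h - Δ)).card ≤ s8cLog (Cc i h).card := by
    intro i hi h hh
    exact s8c_log_mono (Finset.card_le_card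
      ((hPmono i hi (h - Δ) h (Nat.sub_le _ _) hh).trans (hPC i hi h hh)))
  have hind : ∀ i < N, ∀ h ≤ J,
      (if s8cBad β Δ (Pp i) (Cc i) (X i) (Y i) h then (1 : ℝ) else 0) ≤
        (if h < Δ then (1 : ℝ) else 0) + (if h < Δ then (0 : ℝ) else cr i h - pr i (h - Δ)) +
          β⁻¹ * (xr i h + yr i h) := by
    intro i hi h hh
    have t1 : (0 : ℝ) ≤ (if h < Δ then (1 : ℝ) else 0) := by split_ifs <;> norm_num
    have hdiff : 0 ≤ cr i h - pr i (h - Δ) := by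
      rw [hcr, hpr, sub_nonneg]
      exact_mod_cast hlogle i hi h hh
    have t2 : (0 : ℝ) ≤ (if h < Δ then (0 : ℝ) else cr i h - pr i (h - Δ)) := by
      split_ifs
      · exact le_rfl
      · exact hdiff
    have t3 : 0 ≤ β⁻¹ * (xr i h + yr i h) := mul_nonneg hβi.le (add_nonneg (hxr0 i h) (hyr0 i h))
    by_cases hb : s8cBad β Δ (Pp i) (Cc i) (X i) (Y i) h
    · rw [if_pos hb]
      by_cases hΔ : h < Δ
      · rw [if_pos hΔ] at t2 ⊢
        rw [if_pos hΔ]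
        linarith
      · rcases hb with hb | hb | hb
        · exact absurd hb hΔ
        · rw [if_neg hΔ, if_neg hΔ]
          have h1 : s8cLog (Pp i (h - Δ)).card + 1 ≤ s8cLog (Cc i h).card :=
            Nat.succ_le_of_lt (lt_of_le_of_ne (hlogle i hi h hh) hb)
          have h2 : pr i (h - Δ) + 1 ≤ cr i h := by
            rw [hcr, hpr]
            exact_mod_cast h1
          linarith
        · have h1 : (((X i ∪ Y i h) ∩ Cc i h).card : ℝ) ≤
              ((X i ∩ Cc i h).card : ℝ) + ((Y i h ∩ Cc i h).card : ℝ) := by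
            rw [Finset.union_inter_distrib_right]
            exact_mod_cast Finset.card_union_le _ _
          have hc := hCpos i hi h hh
          have h2 : 1 ≤ β⁻¹ * (xr i h + yr i h) := by
            rw [hxr, hyr, ← add_div, inv_mul_eq_div, div_div, le_div_iff₀ (mul_pos hc hβ)]
            linarith
          linarith
    · rw [if_neg hb]
      linarith
  -- the sum over the heights at a fixed position
  have hrow : ∀ i < N, δ * ((J : ℝ) + 1) ≤ Δ + ∑ x ∈ Finset.range K, (cr i (Δ + x) - pr i x) +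
      β⁻¹ * (∑ h ∈ Finset.range (J + 1), xr i h + ∑ h ∈ Finset.range (J + 1), yr i h) := by
    intro i hi
    refine (hbad i hi).le.trans ?_
    rw [Finset.card_filter]
    push_cast
    refine (Finset.sum_le_sum fun h hh => hind i hi h (by rw [Finset.mem_range] at hh; omega)).trans ?_
    rw [Finset.sum_add_distrib, Finset.sum_add_distrib, ← Finset.mul_sum, Finset.sum_add_distrib]
    have e1 : ∑ h ∈ Finset.range (J + 1), (if h < Δ then (1 : ℝ) else 0) = Δ := by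
      rw [hK, Finset.sum_range_add]
      have a1 : ∑ x ∈ Finset.range Δ, (if x < Δ then (1 : ℝ) else 0) = Δ := by
        rw [Finset.sum_congr rfl fun x hx => if_pos (Finset.mem_range.1 hx)]
        simp
      have a2 : ∑ x ∈ Finset.range K, (if Δ + x < Δ then (1 : ℝ) else 0) = 0 :=
        Finset.sum_eq_zero fun x _ => if_neg (by omega)
      rw [a1, a2, add_zero]
    have e2 : ∑ h ∈ Finset.range (J + 1), (if h < Δ then (0 : ℝ) else cr i h - pr i (h - Δ)) =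
        ∑ x ∈ Finset.range K, (cr i (Δ + x) - pr i x) := by
      rw [hK, Finset.sum_range_add]
      have a1 : ∑ x ∈ Finset.range Δ, (if x < Δ then (0 : ℝ) else cr i x - pr i (x - Δ)) = 0 :=
        Finset.sum_eq_zero fun x hx => if_pos (Finset.mem_range.1 hx)
      rw [a1, zero_add]
      refine Finset.sum_congr rfl fun x _ => ?_
      rw [if_neg (by omega), Nat.add_sub_cancel_left]
    rw [e1, e2]
  -- the four sums
  have hS2a : ∀ i < N, ∑ x ∈ Finset.range K, (pr i (Δ + x) - pr i x) ≤ Δ * L := by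
    intro i hi
    exact s8c_shift_sum (pr i) Δ K L (fun h _ => hpr0 i h) (fun h hh => hprL i hi h (by omega))
  have hS2b : ∀ x < K, ∑ i ∈ Finset.range N, (cr i (Δ + x) - pr i (Δ + x)) ≤ L := by
    intro x hx
    exact s8c_tele (fun i => cr i (Δ + x)) (fun i => pr i (Δ + x)) N L hL0 (fun i _ => hpr0 i _)
      (fun i hi => hcp i hi _ (by omega)) (fun i hi => hcrL i hi _ (by omega))
  have hS3 : ∀ i < N, ∑ h ∈ Finset.range (J + 1), yr i h ≤ A * Hm := by
    intro i hi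
    have := s8c_entry_rank (J + 1) (fun h => Cc i h) (fun h => Y i h ∩ Cc i h)
      (fun s t hst ht => hCmono i hi s t hst (by omega))
      (fun t ht => (hPne i hi t (by omega)).mono (hPC i hi t (by omega)))
      (fun t _ => Finset.inter_subset_right) M A (fun t ht => hCcard i hi t (by omega))
      (fun a => le_trans (Finset.card_le_card (by
        intro h hh
        rw [Finset.mem_filter] at hh ⊢
        exact ⟨hh.1, (Finset.mem_inter.1 hh.2).1⟩)) (hY i hi a))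
    rw [hHm]
    refine le_trans (le_of_eq ?_) this
    exact Finset.sum_congr rfl fun h _ => hyr i h
  have hCi : ∀ h ≤ J, ∀ s t, s ≤ t → t < N → Cc s h ⊆ Cc t h := by
    intro h hh s t hst
    induction t, hst using Nat.le_induction with
    | base => exact fun _ => Finset.Subset.refl _
    | succ t hst ih =>
      intro ht
      exact (ih (by omega)).trans ((hCP t ht h hh).trans (hPC (t + 1) ht h hh))
  have hS4 : ∀ h ≤ J, ∑ i ∈ Finset.range N, xr i h ≤ B * Hm := by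
    intro h hh
    have := s8c_entry_rank N (fun i => Cc i h) (fun i => X i ∩ Cc i h)
      (fun s t hst ht => hCi h hh s t hst ht)
      (fun t ht => (hPne t ht h hh).mono (hPC t ht h hh))
      (fun t _ => Finset.inter_subset_right) M B (fun t ht => hCcard t ht h hh)
      (fun a => le_trans (Finset.card_le_card (by
        intro i hi
        rw [Finset.mem_filter] at hi ⊢
        exact ⟨hi.1, (Finset.mem_inter.1 hi.2).1⟩)) (hX a))
    rw [hHm]
    refine le_trans (le_of_eq ?_) this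
    exact Finset.sum_congr rfl fun i _ => hxr i h
  -- total
  have htot : (N : ℝ) * (δ * ((J : ℝ) + 1)) ≤ ∑ i ∈ Finset.range N,
      (Δ + ∑ x ∈ Finset.range K, (cr i (Δ + x) - pr i x) +
        β⁻¹ * (∑ h ∈ Finset.range (J + 1), xr i h + ∑ h ∈ Finset.range (J + 1), yr i h)) := by
    have := Finset.sum_le_sum fun i hi => hrow i (Finset.mem_range.1 hi)
    rwa [Finset.sum_const, Finset.card_range, nsmul_eq_mul] at this
  rw [Finset.sum_add_distrib, Finset.sum_add_distrib, ← Finset.mul_sum, Finset.sum_add_distrib,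
    Finset.sum_const, Finset.card_range, nsmul_eq_mul] at htot
  have b2 : ∑ i ∈ Finset.range N, ∑ x ∈ Finset.range K, (cr i (Δ + x) - pr i x) ≤ K * L + N * (Δ * L) := by
    have e : ∀ i, ∑ x ∈ Finset.range K, (cr i (Δ + x) - pr i x) =
        ∑ x ∈ Finset.range K, (cr i (Δ + x) - pr i (Δ + x)) +
          ∑ x ∈ Finset.range K, (pr i (Δ + x) - pr i x) := by
      intro i
      rw [← Finset.sum_add_distrib]
      exact Finset.sum_congr rfl fun x _ => by ring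
    simp only [e]
    rw [Finset.sum_add_distrib, Finset.sum_comm]
    refine add_le_add ?_ ?_
    · have := Finset.sum_le_sum fun x hx => hS2b x (Finset.mem_range.1 hx)
      rwa [Finset.sum_const, Finset.card_range, nsmul_eq_mul] at this
    · have := Finset.sum_le_sum fun i hi => hS2a i (Finset.mem_range.1 hi)
      rwa [Finset.sum_const, Finset.card_range, nsmul_eq_mul] at this
  have b3 : ∑ i ∈ Finset.range N, ∑ h ∈ Finset.range (J + 1), yr i h ≤ N * (A * Hm) := by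
    have := Finset.sum_le_sum fun i hi => hS3 i (Finset.mem_range.1 hi)
    rwa [Finset.sum_const, Finset.card_range, nsmul_eq_mul] at this
  have b4 : ∑ i ∈ Finset.range N, ∑ h ∈ Finset.range (J + 1), xr i h ≤ ((J : ℝ) + 1) * (B * Hm) := by
    rw [Finset.sum_comm]
    have := Finset.sum_le_sum (s := Finset.range (J + 1)) fun h hh =>
      hS4 h (Nat.le_of_lt_succ (Finset.mem_range.1 hh))
    rw [Finset.sum_const, Finset.card_range, nsmul_eq_mul] at this
    push_cast at this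
    exact this
  have hKJ : (K : ℝ) ≤ (J : ℝ) + 1 := by
    have : K ≤ J + 1 := by omega
    exact_mod_cast this
  have hj : (0 : ℝ) < (J : ℝ) + 1 := by positivity
  obtain ⟨Q, hQ⟩ : ∃ Q : ℝ, Q = (Δ : ℝ) * (L + 1) + β⁻¹ * A * Hm := ⟨_, rfl⟩
  obtain ⟨W, hW⟩ : ∃ W : ℝ, W = L + β⁻¹ * B * Hm := ⟨_, rfl⟩
  rw [← hQ] at hJbig
  rw [← hW]
  have hQ2 : Q ≤ δ * ((J : ℝ) + 1) / 2 := by
    rw [div_le_iff₀ hδ] at hJbig
    linarith
  have hn0 : (0 : ℝ) ≤ N := Nat.cast_nonneg _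
  have c1 : (N : ℝ) * Q ≤ N * (δ * ((J : ℝ) + 1) / 2) := mul_le_mul_of_nonneg_left hQ2 hn0
  have c2 : (K : ℝ) * L ≤ ((J : ℝ) + 1) * L := mul_le_mul_of_nonneg_right hKJ hL0
  have c3 : β⁻¹ * (∑ i ∈ Finset.range N, ∑ h ∈ Finset.range (J + 1), xr i h +
      ∑ i ∈ Finset.range N, ∑ h ∈ Finset.range (J + 1), yr i h) ≤
      β⁻¹ * (((J : ℝ) + 1) * (B * Hm) + N * (A * Hm)) :=
    mul_le_mul_of_nonneg_left (add_le_add b4 b3) hβi.le
  have c4 : (N : ℝ) * (δ * ((J : ℝ) + 1)) ≤ N * Q + ((J : ℝ) + 1) * W := by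
    rw [hQ, hW]
    have e : (N : ℝ) * ((Δ : ℝ) * (L + 1) + β⁻¹ * A * Hm) + ((J : ℝ) + 1) * (L + β⁻¹ * B * Hm) =
        N * Δ + (((J : ℝ) + 1) * L + N * (Δ * L)) + β⁻¹ * (((J : ℝ) + 1) * (B * Hm) + N * (A * Hm)) := by
      ring
    rw [e]
    linarith
  have c5 : ((J : ℝ) + 1) * ((N : ℝ) * δ / 2) ≤ ((J : ℝ) + 1) * W := by
    have e : ((J : ℝ) + 1) * ((N : ℝ) * δ / 2) = N * (δ * ((J : ℝ) + 1)) - N * (δ * ((J : ℝ) + 1) / 2) := by
      ring
    rw [e]
    linarith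
  have c6 : (N : ℝ) * δ / 2 ≤ W := le_of_mul_le_mul_left c5 hj
  rw [div_mul_eq_mul_div, le_div_iff₀ hδ]
  linarith

end

end Claimed.Agent.R258
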