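/-
Row 258 (S0498).  Block [S8c], architect helper61.  File Good.lean: Lemma 8.4 (coherence of good predicates), abstract form.
Mathlib only + Tower.lean/Rank.lean, NO paper needed.

LEAF P-S8c-GOOD = all `sorry`s of this file.
PLANS.  Basic facts first: if `T.pre p h m m'` then `T.E p h m = T.E p h m'` (filter of an equivalence), the same for `cur`/`F`; `m ∈ lst p → prim m ∈ piE p h m`;
`piE p h m ⊆ piE p h' m` (`h ≤ h'`), `piE p h m ⊆ piF p h m`.
* `good_pre`: `F = piF p h m = piF p h m'`.  `Good` unfolds (`s8cBad`, `not_or`) to `Δ ≤ h`, equality of the floor logs, `|(exc ∪ hbad h) ∩ F| ≤ |F|/10`.  By `s8c_log_eq`,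
  `|F| < 1.1 |piE p (h-Δ) m|`, the same for `m'`; both sets are contained in `F`; so `|piE m ∩ piE m'| ≥ |piE m| + |piE m'| - |F| > (2/1.1 - 1)|F| > |F|/10`
  (`Finset.card_union_add_card_inter`): there is `π` in the intersection outside `exc ∪ hbad h`.  Witnesses `a ∈ E p (h-Δ) m`, `a' ∈ E p (h-Δ) m'`, `prim a = prim a' = π`,
  `cur p h a a'`; field `stab` gives `pre p (h-Δ) a a'`; transitivity.
* `good_congr`: `pre p 0 m m'` gives `pre p h m m'`, `cur p h m m'` for all `h`, so all the sets `E, F, piE, piF` coincide.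
* `core_coherent`: the bad heights of `m` and of `m'` are together `≤ 2δ(J+1) < 4δJ ≤ ⌈4δJ⌉₊ ≤ J` (`J ≥ 2`, `δ ≤ 1/4`): some `h₀ < ⌈4δJ⌉₊` is good for both;
  `cur p h₀ m m'`, `good_pre`: `pre p (h₀-Δ) m m'`, so `pre p (h-Δ) m m'` and `cur p h m m'` for `h ≥ h₀`; then the sets in `Good` coincide.
* `core_up_density`: `|s8cUp| = J + 1 - ⌈4δJ⌉₊ ≥ (1-4δ)J ≥ 3J/4`, and `δ(J+1) ≤ 2δ·(3J/4)` for `J ≥ 2`.
-/
import Claimed.Agent.R258.Pack013

set_option autoImplicit false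

namespace Claimed.Agent.R258

open scoped BigOperators
open Classical

noncomputable section

namespace S8cTower

variable {Pos Md Pr : Type*} {T : S8cTower Pos Md Pr}

/-! ### basic facts -/

theorem s8c_mem_E {p : Pos} {h : ℕ} {m a : Md} : a ∈ T.E p h m ↔ a ∈ T.lst p ∧ T.pre p h m a := by
  unfold S8cTower.E
  rw [Finset.mem_filter]

theorem s8c_mem_F {p : Pos} {h : ℕ} {m a : Md} : a ∈ T.F p h m ↔ a ∈ T.lst p ∧ T.cur p h m a := by
  unfold S8cTower.F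
  rw [Finset.mem_filter]

theorem s8c_E_congr {Δ J : ℕ} (hT : T.Valid Δ J) {p : Pos} {h : ℕ} {m m' : Md} (hp : T.pre p h m m') :
    T.E p h m = T.E p h m' := by
  ext a
  rw [s8c_mem_E, s8c_mem_E]
  refine and_congr_right fun _ => ⟨fun h1 => ?_, fun h1 => ?_⟩
  · exact (hT.pre_eqv p h).trans ((hT.pre_eqv p h).symm hp) h1
  · exact (hT.pre_eqv p h).trans hp h1

theorem s8c_F_congr {Δ J : ℕ} (hT : T.Valid Δ J) {p : Pos} {h : ℕ} {m m' : Md} (hp : T.cur p h m m') :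
    T.F p h m = T.F p h m' := by
  ext a
  rw [s8c_mem_F, s8c_mem_F]
  refine and_congr_right fun _ => ⟨fun h1 => ?_, fun h1 => ?_⟩
  · exact (hT.cur_eqv p h).trans ((hT.cur_eqv p h).symm hp) h1
  · exact (hT.cur_eqv p h).trans hp h1

theorem s8c_self_mem_E {Δ J : ℕ} (hT : T.Valid Δ J) {p : Pos} (h : ℕ) {m : Md} (hm : m ∈ T.lst p) :
    m ∈ T.E p h m := s8c_mem_E.2 ⟨hm, (hT.pre_eqv p h).refl m⟩

theorem s8c_E_mono {Δ J : ℕ} (hT : T.Valid Δ J) (p : Pos) {h h' : ℕ} (hh : h ≤ h') (m : Md) :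
    T.E p h m ⊆ T.E p h' m := by
  intro a ha
  rw [s8c_mem_E] at ha ⊢
  exact ⟨ha.1, hT.pre_mono p h h' m a hh ha.2⟩

theorem s8c_F_mono {Δ J : ℕ} (hT : T.Valid Δ J) (p : Pos) {h h' : ℕ} (hh : h ≤ h') (m : Md) :
    T.F p h m ⊆ T.F p h' m := by
  intro a ha
  rw [s8c_mem_F] at ha ⊢
  exact ⟨ha.1, hT.cur_mono p h h' m a hh ha.2⟩

theorem s8c_E_sub_F {Δ J : ℕ} (hT : T.Valid Δ J) (p : Pos) (h : ℕ) (m : Md) :
    T.E p h m ⊆ T.F p h m := by
  intro a ha
  rw [s8c_mem_E] at ha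
  exact s8c_mem_F.2 ⟨ha.1, hT.pre_cur p h m a ha.2⟩

theorem s8c_piE_nonempty {Δ J : ℕ} (hT : T.Valid Δ J) {p : Pos} (h : ℕ) {m : Md} (hm : m ∈ T.lst p) :
    (T.piE p h m).Nonempty :=
  ⟨T.prim m, Finset.mem_image_of_mem _ (s8c_self_mem_E hT h hm)⟩

theorem s8c_piE_mono {Δ J : ℕ} (hT : T.Valid Δ J) (p : Pos) {h h' : ℕ} (hh : h ≤ h') (m : Md) :
    T.piE p h m ⊆ T.piE p h' m := Finset.image_subset_image (s8c_E_mono hT p hh m)

theorem s8c_piF_mono {Δ J : ℕ} (hT : T.Valid Δ J) (p : Pos) {h h' : ℕ} (hh : h ≤ h') (m : Md) :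
    T.piF p h m ⊆ T.piF p h' m := Finset.image_subset_image (s8c_F_mono hT p hh m)

theorem s8c_piE_sub_piF {Δ J : ℕ} (hT : T.Valid Δ J) (p : Pos) (h : ℕ) (m : Md) :
    T.piE p h m ⊆ T.piF p h m := Finset.image_subset_image (s8c_E_sub_F hT p h m)

theorem s8c_good_iff {Δ : ℕ} {p : Pos} {h : ℕ} {m : Md} : T.Good Δ p h m ↔
    Δ ≤ h ∧ s8cLog (T.piE p (h - Δ) m).card = s8cLog (T.piF p h m).card ∧
      (((T.exc p ∪ T.hbad p h) ∩ T.piF p h m).card : ℝ) ≤ 1 / 10 * ((T.piF p h m).card : ℝ) := by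
  unfold S8cTower.Good s8cBad
  rw [not_or, not_or, not_lt, not_not, not_lt]

/-- two large subsets of `F` have a common point outside a small set -/
theorem s8c_exists_common {α : Type*} (A A' F Bad : Finset α) (hA : A ⊆ F) (hA' : A' ⊆ F)
    (hcard : (F.card : ℝ) + 1 / 10 * F.card < (A.card : ℝ) + A'.card)
    (hbad : ((Bad ∩ F).card : ℝ) ≤ 1 / 10 * (F.card : ℝ)) : ∃ x ∈ A, x ∈ A' ∧ x ∉ Bad := by
  by_contra hno
  push Not at hno
  have h1 : A ∩ A' ⊆ Bad ∩ F := by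
    intro x hx
    rw [Finset.mem_inter] at hx
    exact Finset.mem_inter.2 ⟨hno x hx.1 hx.2, hA hx.1⟩
  have h2 : ((A ∩ A').card : ℝ) ≤ ((Bad ∩ F).card : ℝ) := by exact_mod_cast Finset.card_le_card h1
  have h3 : ((A ∪ A').card : ℝ) ≤ (F.card : ℝ) := by
    exact_mod_cast Finset.card_le_card (Finset.union_subset hA hA')
  have h4 : ((A ∪ A').card : ℝ) + ((A ∩ A').card : ℝ) = (A.card : ℝ) + A'.card := by
    exact_mod_cast Finset.card_union_add_card_inter A A'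
  linarith

/-! ### Lemma 8.4 -/

/-- **Lemma 8.4 (a)**: good modes in one CURRENT component at height `h` have the same PRE component at `h - Δ`. -/
theorem good_pre {Δ J : ℕ} (hT : T.Valid Δ J) (p : Pos) (h : ℕ) (hJ : h ≤ J) (m m' : Md)
    (hm : m ∈ T.lst p) (hm' : m' ∈ T.lst p) (hg : T.Good Δ p h m) (hg' : T.Good Δ p h m')
    (hc : T.cur p h m m') : T.pre p (h - Δ) m m' := by
  obtain ⟨hΔ, hlog, hbad⟩ := s8c_good_iff.1 hg
  obtain ⟨-, hlog', -⟩ := s8c_good_iff.1 hg'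
  have hFF : T.piF p h m' = T.piF p h m := by
    unfold S8cTower.piF
    rw [s8c_F_congr hT hc]
  rw [hFF] at hlog'
  have hsub : T.piE p (h - Δ) m ⊆ T.piF p h m :=
    (s8c_piE_mono hT p (Nat.sub_le _ _) m).trans (s8c_piE_sub_piF hT p h m)
  have hsub' : T.piE p (h - Δ) m' ⊆ T.piF p h m := by
    rw [← hFF]
    exact (s8c_piE_mono hT p (Nat.sub_le _ _) m').trans (s8c_piE_sub_piF hT p h m')
  have hApos : 0 < (T.piE p (h - Δ) m).card := (s8c_piE_nonempty hT _ hm).card_pos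
  have hApos' : 0 < (T.piE p (h - Δ) m').card := (s8c_piE_nonempty hT _ hm').card_pos
  have hFpos : 0 < (T.piF p h m).card := ((s8c_piE_nonempty hT _ hm).mono hsub).card_pos
  have h1 := s8c_log_eq hApos hFpos hlog
  have h2 := s8c_log_eq hApos' hFpos hlog'
  have hF0 : (0 : ℝ) < (T.piF p h m).card := by exact_mod_cast hFpos
  obtain ⟨π, hπ, hπ', hπbad⟩ := s8c_exists_common _ _ _ (T.exc p ∪ T.hbad p h) hsub hsub'
    (by linarith) hbad
  obtain ⟨a, ha, hpa⟩ := Finset.mem_image.1 hπ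
  obtain ⟨a', ha', hpa'⟩ := Finset.mem_image.1 hπ'
  rw [s8c_mem_E] at ha ha'
  rw [Finset.mem_union, not_or] at hπbad
  have hcur : ∀ x y, T.pre p (h - Δ) x y → T.cur p h x y := fun x y hxy =>
    hT.pre_cur p h x y (hT.pre_mono p (h - Δ) h x y (Nat.sub_le _ _) hxy)
  have hcaa : T.cur p h a a' :=
    (hT.cur_eqv p h).trans ((hT.cur_eqv p h).symm (hcur _ _ ha.2))
      ((hT.cur_eqv p h).trans hc (hcur _ _ ha'.2))
  have hst := hT.stab p h a a' hΔ hJ ha.1 ha'.1 (hpa.trans hpa'.symm) (hpa ▸ hπbad.1) (hpa ▸ hπbad.2) hcaa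
  exact (hT.pre_eqv p (h - Δ)).trans ha.2
    ((hT.pre_eqv p (h - Δ)).trans hst ((hT.pre_eqv p (h - Δ)).symm ha'.2))

/-- **Lemma 8.4 (b)**: all predicates are constant on minimal PRE components. -/
theorem good_congr {Δ J : ℕ} (hT : T.Valid Δ J) (p : Pos) (m m' : Md) (hp : T.pre p 0 m m') :
    (∀ h, T.Good Δ p h m ↔ T.Good Δ p h m') ∧ ∀ δ : ℝ, T.Core Δ J δ p m ↔ T.Core Δ J δ p m' := by
  have hE : ∀ h, T.piE p h m = T.piE p h m' := by
    intro h
    unfold S8cTower.piE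
    rw [s8c_E_congr hT (hT.pre_mono p 0 h m m' (Nat.zero_le _) hp)]
  have hF : ∀ h, T.piF p h m = T.piF p h m' := by
    intro h
    unfold S8cTower.piF
    rw [s8c_F_congr hT (hT.pre_cur p h m m' (hT.pre_mono p 0 h m m' (Nat.zero_le _) hp))]
  have hG : ∀ h, T.Good Δ p h m ↔ T.Good Δ p h m' := by
    intro h
    rw [s8c_good_iff, s8c_good_iff, hE, hF]
  refine ⟨hG, fun δ => ?_⟩
  unfold S8cTower.Core S8cTower.badCount
  simp only [hG]

/-- **Lemma 8.4 (c)**: core modes in one minimal CURRENT component have identical good predicates and identical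
predecessors on the upper range. -/
theorem core_coherent {Δ J : ℕ} (hT : T.Valid Δ J) (δ : ℝ) (hδ : 0 < δ) (hδ4 : δ ≤ 1 / 4) (hJ : 2 ≤ J)
    (p : Pos) (m m' : Md) (hm : m ∈ T.lst p) (hm' : m' ∈ T.lst p) (hc : T.Core Δ J δ p m)
    (hc' : T.Core Δ J δ p m') (h0 : T.cur p 0 m m') (h : ℕ) (hh : h ∈ s8cUp J δ) :
    (T.Good Δ p h m ↔ T.Good Δ p h m') ∧ T.pre p (h - Δ) m m' := by
  obtain ⟨c, hc0⟩ : ∃ c : ℕ, c = ⌈4 * δ * J⌉₊ := ⟨_, rfl⟩
  unfold s8cUp at hh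
  rw [Finset.mem_filter, Finset.mem_range, ← hc0] at hh
  have hJ' : (2 : ℝ) ≤ J := by exact_mod_cast hJ
  have hcJ : c ≤ J := by
    rw [hc0]
    refine Nat.ceil_le.2 ?_
    nlinarith
  have hcge : 4 * δ * J ≤ (c : ℝ) := by
    rw [hc0]
    exact Nat.le_ceil _
  -- a common good height below `c`
  have hex : ∃ h₀ < c, T.Good Δ p h₀ m ∧ T.Good Δ p h₀ m' := by
    by_contra hno
    push Not at hno
    have hsub : Finset.range c ⊆ (Finset.range (J + 1)).filter (fun h => ¬ T.Good Δ p h m) ∪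
        (Finset.range (J + 1)).filter (fun h => ¬ T.Good Δ p h m') := by
      intro h₀ hh₀
      rw [Finset.mem_range] at hh₀
      rw [Finset.mem_union, Finset.mem_filter, Finset.mem_filter, Finset.mem_range]
      by_cases hg : T.Good Δ p h₀ m
      · exact Or.inr ⟨by omega, hno h₀ hh₀ hg⟩
      · exact Or.inl ⟨by omega, hg⟩
    have h1 := (Finset.card_le_card hsub).trans (Finset.card_union_le _ _)
    rw [Finset.card_range] at h1
    have h2 : (c : ℝ) ≤ (T.badCount Δ J p m : ℝ) + (T.badCount Δ J p m' : ℝ) := by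
      exact_mod_cast h1
    unfold S8cTower.Core at hc hc'
    nlinarith
  obtain ⟨h₀, hh₀, hg, hg'⟩ := hex
  have hpre₀ : T.pre p (h₀ - Δ) m m' := good_pre hT p h₀ (by omega) m m' hm hm' hg hg'
    (hT.cur_mono p 0 h₀ m m' (Nat.zero_le _) h0)
  have hpre : T.pre p (h - Δ) m m' := hT.pre_mono p (h₀ - Δ) (h - Δ) m m' (by omega) hpre₀
  refine ⟨?_, hpre⟩
  have hE : T.piE p (h - Δ) m = T.piE p (h - Δ) m' := by
    unfold S8cTower.piE
    rw [s8c_E_congr hT hpre]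
  have hF : T.piF p h m = T.piF p h m' := by
    unfold S8cTower.piF
    rw [s8c_F_congr hT (hT.cur_mono p 0 h m m' (Nat.zero_le _) h0)]
  rw [s8c_good_iff, s8c_good_iff, hE, hF]

/-- **Lemma 8.4 (d)**: a core mode has bad proportion at most `2δ` in the upper range. -/
theorem core_up_density {Δ J : ℕ} (δ : ℝ) (hδ : 0 < δ) (hδ16 : δ ≤ 1 / 16) (hJ : 2 ≤ J)
    (p : Pos) (m : Md) (hc : T.Core Δ J δ p m) :
    (((s8cUp J δ).filter (fun h => ¬ T.Good Δ p h m)).card : ℝ) ≤ 2 * δ * ((s8cUp J δ).card : ℝ) := by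
  obtain ⟨c, hc0⟩ : ∃ c : ℕ, c = ⌈4 * δ * J⌉₊ := ⟨_, rfl⟩
  have hJ' : (2 : ℝ) ≤ J := by exact_mod_cast hJ
  have hclt : (c : ℝ) < 4 * δ * J + 1 := by
    rw [hc0]
    exact Nat.ceil_lt_add_one (by positivity)
  have hcJ : c ≤ J := by
    rw [hc0]
    refine Nat.ceil_le.2 ?_
    nlinarith
  have hUp : s8cUp J δ = Finset.Ico c (J + 1) := by
    unfold s8cUp
    rw [← hc0]
    ext h
    rw [Finset.mem_filter, Finset.mem_range, Finset.mem_Ico]
    exact and_comm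
  have hcard : ((s8cUp J δ).card : ℝ) = (J : ℝ) + 1 - c := by
    rw [hUp, Nat.card_Ico, Nat.cast_sub (by omega)]
    push_cast
    ring
  have h1 : (((s8cUp J δ).filter (fun h => ¬ T.Good Δ p h m)).card : ℝ) ≤ (T.badCount Δ J p m : ℝ) := by
    unfold S8cTower.badCount
    have : (s8cUp J δ).filter (fun h => ¬ T.Good Δ p h m) ⊆
        (Finset.range (J + 1)).filter (fun h => ¬ T.Good Δ p h m) :=
      Finset.filter_subset_filter _ (Finset.filter_subset _ _)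
    exact_mod_cast Finset.card_le_card this
  unfold S8cTower.Core at hc
  rw [hcard]
  have h2 : (J : ℝ) + 1 ≤ 2 * ((J : ℝ) + 1 - c) := by nlinarith
  have h3 : δ * ((J : ℝ) + 1) ≤ δ * (2 * ((J : ℝ) + 1 - c)) := mul_le_mul_of_nonneg_left h2 hδ.le
  linarith

end S8cTower

end

end Claimed.Agent.R258
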