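/-
Row 258 (S0498).  Block [S8c], architect helper61.  File ChainLe.lean: the chain bound of Prop. 8.9, abstract form.  NO paper needed.

LEAF P-S8c-CHAINLE = the `sorry` of this file.
PLAN: apply `s8c_bad_density_chain` with `β = 1/10`, `Pp i h = T.piE (p i) h (m i)`, `Cc i h = T.piF (p i) h (m i)`, `X i = T.exc (p i)`, `Y i h = T.hbad (p i) h`.
`hPne`: `prim (m i) ∈ piE` (reflexivity).  Monotone in `h`: `pre_mono`, `cur_mono`.  `hCcard`: `piF ⊆ (lst (p i)).image prim`.  `hPC`: `pre_cur`.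
`hCP`: `a ∈ lst (p i)`, `cur (p i) h (m i) a` ⇒ `pre (p (i+1)) h (m i) a` (`hfar`), `pre (p (i+1)) h (m i) (m (i+1))` (`hlink`, `pre_mono`), `a ∈ lst (p (i+1))` (`lst_mono`).
`hbad`: `¬ Core` is `δ (J+1) < badCount`, and `¬ Good` is `s8cBad` (`not_not`).  `(1/10)⁻¹ = 10`.
-/
import Claimed.Agent.R258.S8c.Dens
import Claimed.Agent.R258.S8c.Good

set_option autoImplicit false

namespace Claimed.Agent.R258

open scoped BigOperators
open Classical

noncomputable section

namespace S8cTower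

variable {Pos Md Pr : Type*} {T : S8cTower Pos Md Pr}

/-! ### chains of side events (Prop. 8.9) -/

/-- **Chain bound** (Prop. 8.9): a chain of linked side events at positions `p 0, p 1, …` such that CURRENT edges of
`p i` persist as PRE edges of `p (i+1)` has bounded length. -/
theorem chain_le {Δ J : ℕ} (hT : T.Valid Δ J) (hΔJ : Δ ≤ J) (δ : ℝ) (hδ : 0 < δ) (N M A B : ℕ) (p : ℕ → Pos)
    (m : ℕ → Md) (hm : ∀ i < N, m i ∈ T.lst (p i)) (hside : ∀ i < N, ¬ T.Core Δ J δ (p i) (m i))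
    (hanc : ∀ i, i + 1 < N → T.anc (p i) (p (i + 1)))
    (hfar : ∀ i, i + 1 < N → ∀ h a a', a ∈ T.lst (p i) → a' ∈ T.lst (p i) → T.cur (p i) h a a' →
      T.pre (p (i + 1)) h a a')
    (hlink : ∀ i, i + 1 < N → T.pre (p (i + 1)) 0 (m i) (m (i + 1)))
    (hM : ∀ i < N, ((T.lst (p i)).image T.prim).card ≤ M)
    (hB : ∀ a, ((Finset.range N).filter (fun i => a ∈ T.exc (p i))).card ≤ B)
    (hA : ∀ i < N, ∀ a, ((Finset.range (J + 1)).filter (fun h => a ∈ T.hbad (p i) h)).card ≤ A)
    (hJbig : 2 * ((Δ : ℝ) * ((s8cLog M : ℝ) + 1) + 10 * A * (harmonic M : ℝ)) / δ ≤ (J : ℝ) + 1) :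
    (N : ℝ) ≤ 2 / δ * ((s8cLog M : ℝ) + 10 * B * (harmonic M : ℝ)) := by
  have h10 : ((1 : ℝ) / 10)⁻¹ = 10 := by norm_num
  have key := s8c_bad_density_chain δ (1 / 10) hδ (by norm_num) J Δ M N A B hΔJ
    (fun i h => T.piE (p i) h (m i)) (fun i h => T.piF (p i) h (m i)) (fun i => T.exc (p i))
    (fun i h => T.hbad (p i) h)
    (fun i hi h _ => s8c_piE_nonempty hT h (hm i hi))
    (fun i _ h h' hh _ => s8c_piE_mono hT (p i) hh (m i))
    (fun i _ h h' hh _ => s8c_piF_mono hT (p i) hh (m i))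
    (fun i hi h _ => (Finset.card_le_card
      (Finset.image_subset_image (Finset.filter_subset _ _))).trans (hM i hi))
    (fun i _ h _ => s8c_piE_sub_piF hT (p i) h (m i))
    (by
      intro i hi h _
      refine Finset.image_subset_image ?_
      intro a ha
      rw [s8c_mem_F] at ha
      rw [s8c_mem_E]
      refine ⟨hT.lst_mono _ _ (hanc i hi) ha.1, ?_⟩
      have h1 := hfar i hi h (m i) a (hm i (by omega)) ha.1 ha.2
      have h2 := hT.pre_mono (p (i + 1)) 0 h _ _ (Nat.zero_le _) (hlink i hi)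
      exact (hT.pre_eqv (p (i + 1)) h).trans ((hT.pre_eqv (p (i + 1)) h).symm h2) h1)
    hB hA
    (by
      intro i hi
      have h1 := hside i hi
      unfold S8cTower.Core S8cTower.badCount S8cTower.Good at h1
      rw [not_le] at h1
      simp only [not_not] at h1
      exact h1)
    (by
      rw [h10]
      exact hJbig)
  rw [h10] at key
  exact key

end S8cTower

end

end Claimed.Agent.R258
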