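/-
Row 258 (S0498).  Block [S8c], architect helper61.  File Hered.lean: Lemma 8.10 (hereditary representatives), combinatorial part.  NO paper needed.

LEAF P-S8c-HERED = all `sorry`s of this file.
PLANS.
* `pred_incl`: `F = piF p' h m'`.  Goodness at `p'`: `|F| < 1.1 |piE p' (h-Δ) m'|`; equal first type coordinates: `|piE p' (h-Δ) m'| < 1.1 |piE p (h-Δ) m|` (`s8c_log_eq`).
  Both primary sets lie in `F` (`pre_pers`, `lst_mono`, `pre_mono`, `pre_cur`, `hc`).  Their intersection has more than `(1/1.1 + 1/1.21 - 1)|F| > |F|/10` elements, so it contains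
  `π ∉ exc p' ∪ hbad p' h`; witnesses `a ∈ E p (h-Δ) m`, `a' ∈ E p' (h-Δ) m'` with `prim a = prim a' = π`, both in `lst p'`, `cur p' h a a'`; `stab` at `p'`; transitivity.
* `hereditary`: for `(p,m)` let `𝒜 p m` = set of `(p₀,m₀)` with `anc p₀ p`, `m₀ ∈ lst p₀`, `Good Δ p₀ h m₀`, `typ p₀ m₀ = typ p m`, `pre p (h-Δ) m₀ m`.  It contains `(p,m)`.
  Let `t₀` = minimal `time p₀` on `𝒜 p m` (`Nat.find`), `(p₀,m₀)` a minimiser (choice), `Est p m = E p₀ (h-Δ) m₀`, `rep p m` = a chosen element of `Est p m` by a FIXED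
  choice function `Finset Md → Md`.  (U) the finset `Est` does not depend on the minimiser: two minimisers have `p₀ = p₁` (`anc_tree`, `anc_eq`); `E p₀ m₀` and `E p₀ m₁` are both contained
  in `E p (h-Δ) m` (`pre_pers`, `lst_mono`) and each has more than `|E p m|/1.1 > |E p m|/2` elements (second type coordinate, `s8c_log_eq`): they intersect, so they are equal.
  First claim: `rep p m ∈ Est p m ⊆ E p (h-Δ) m`.
  Second claim: `pred_incl` gives `pre p' (h-Δ) m m'`, hence `𝒜 p m ⊆ 𝒜 p' m'`.  Let `(p₁,m₁)` be a minimiser of `𝒜 p' m'`, `(p₀,m₀)` of `𝒜 p m`: `time p₁ ≤ time p₀`, `anc p₁ p₀` (`anc_tree`);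
  `E p₁ m₁` and `E p₀ m₀` are both more than half of `E p' (h-Δ) m'`: a common mode `a`; `pre p₀ (h-Δ) m₁ a` (`pre_pers`) and `pre p₀ (h-Δ) m₀ a` give `pre p₀ (h-Δ) m₁ m₀`, so `(p₁,m₁) ∈ 𝒜 p m`.
  So the minimal times agree, `(p₀,m₀)` is also a minimiser of `𝒜 p' m'`, and (U) gives `Est p m = Est p' m'`.
-/
import Claimed.Agent.R258.S8c.Good

set_option autoImplicit false

namespace Claimed.Agent.R258

open scoped BigOperators
open Classical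

noncomputable section

namespace S8cTower

variable {Pos Md Pr : Type*} {T : S8cTower Pos Md Pr}

/-! ### Lemma 8.10 -/

/-- key inclusion in Lemma 8.10: a CURRENT link between good modes of the same first type coordinate forces the
inclusion of the predecessors. -/
theorem pred_incl {Δ J : ℕ} (hT : T.Valid Δ J) (h : ℕ) (hJ : h ≤ J) (p p' : Pos) (m m' : Md)
    (ha : T.anc p p') (hm : m ∈ T.lst p) (hm' : m' ∈ T.lst p') (hg : T.Good Δ p h m)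
    (hg' : T.Good Δ p' h m') (ht : (T.typ Δ p h m).1 = (T.typ Δ p' h m').1) (hc : T.cur p' h m m') :
    T.pre p' (h - Δ) m m' := by
  obtain ⟨hΔ, hlog', hbad'⟩ := s8c_good_iff.1 hg'
  have ht' : s8cLog (T.piE p (h - Δ) m).card = s8cLog (T.piE p' (h - Δ) m').card := ht
  have hpers : ∀ a, a ∈ T.E p (h - Δ) m → a ∈ T.lst p' ∧ T.pre p' (h - Δ) m a := by
    intro a haE
    rw [s8c_mem_E] at haE
    exact ⟨hT.lst_mono p p' ha haE.1, hT.pre_pers p p' (h - Δ) m a ha hm haE.1 haE.2⟩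
  have hcur : ∀ x y, T.pre p' (h - Δ) x y → T.cur p' h x y := fun x y hxy =>
    hT.pre_cur p' h x y (hT.pre_mono p' (h - Δ) h x y (Nat.sub_le _ _) hxy)
  have hsubA : T.piE p (h - Δ) m ⊆ T.piF p' h m' := by
    intro π hπ
    obtain ⟨a, haE, rfl⟩ := Finset.mem_image.1 hπ
    refine Finset.mem_image_of_mem _ (s8c_mem_F.2 ⟨(hpers a haE).1, ?_⟩)
    exact (hT.cur_eqv p' h).trans ((hT.cur_eqv p' h).symm hc) (hcur _ _ (hpers a haE).2)
  have hsubA' : T.piE p' (h - Δ) m' ⊆ T.piF p' h m' :=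
    (s8c_piE_mono hT p' (Nat.sub_le _ _) m').trans (s8c_piE_sub_piF hT p' h m')
  have hApos : 0 < (T.piE p (h - Δ) m).card := (s8c_piE_nonempty hT _ hm).card_pos
  have hApos' : 0 < (T.piE p' (h - Δ) m').card := (s8c_piE_nonempty hT _ hm').card_pos
  have hFpos : 0 < (T.piF p' h m').card := ((s8c_piE_nonempty hT _ hm').mono hsubA').card_pos
  have h1 := s8c_log_eq hApos' hFpos hlog'
  have h2 := s8c_log_eq hApos hApos' ht'
  have hA0 : (0 : ℝ) < (T.piE p' (h - Δ) m').card := by exact_mod_cast hApos'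
  obtain ⟨π, hπ, hπ', hπbad⟩ := s8c_exists_common _ _ _ (T.exc p' ∪ T.hbad p' h) hsubA hsubA'
    (by linarith) hbad'
  obtain ⟨a, haE, hpa⟩ := Finset.mem_image.1 hπ
  obtain ⟨a', haE', hpa'⟩ := Finset.mem_image.1 hπ'
  rw [s8c_mem_E] at haE'
  rw [Finset.mem_union, not_or] at hπbad
  have hcaa : T.cur p' h a a' :=
    (hT.cur_eqv p' h).trans ((hT.cur_eqv p' h).symm (hcur _ _ (hpers a haE).2))
      ((hT.cur_eqv p' h).trans hc (hcur _ _ haE'.2))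
  have hst := hT.stab p' h a a' hΔ hJ (hpers a haE).1 haE'.1 (hpa.trans hpa'.symm) (hpa ▸ hπbad.1)
    (hpa ▸ hπbad.2) hcaa
  exact (hT.pre_eqv p' (h - Δ)).trans (hpers a haE).2
    ((hT.pre_eqv p' (h - Δ)).trans hst ((hT.pre_eqv p' (h - Δ)).symm haE'.2))

/-- the set `𝒜 p m` of the plan -/
def s8cAnc (T : S8cTower Pos Md Pr) (Δ h : ℕ) (p : Pos) (m : Md) (p₀ : Pos) (m₀ : Md) : Prop :=
  T.anc p₀ p ∧ m₀ ∈ T.lst p₀ ∧ T.Good Δ p₀ h m₀ ∧ T.typ Δ p₀ h m₀ = T.typ Δ p h m ∧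
    T.pre p (h - Δ) m₀ m

/-- minimisers of the time on `𝒜 p m` -/
def s8cIsMin (T : S8cTower Pos Md Pr) (Δ h : ℕ) (p : Pos) (m : Md) (p₀ : Pos) (m₀ : Md) : Prop :=
  s8cAnc T Δ h p m p₀ m₀ ∧ ∀ x y, s8cAnc T Δ h p m x y → T.time p₀ ≤ T.time x

theorem s8c_exists_min {Δ h : ℕ} {p : Pos} {m : Md} {x : Pos} {y : Md} (hx : s8cAnc T Δ h p m x y) :
    ∃ p₀ m₀, s8cIsMin T Δ h p m p₀ m₀ := by
  have hex : ∃ t, ∃ x y, s8cAnc T Δ h p m x y ∧ T.time x = t := ⟨_, x, y, hx, rfl⟩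
  obtain ⟨p₀, m₀, h0, ht⟩ := Nat.find_spec hex
  refine ⟨p₀, m₀, h0, fun x' y' hx' => ?_⟩
  rw [ht]
  exact Nat.find_min' hex ⟨x', y', hx', rfl⟩

theorem s8c_anc_E_sub {Δ J h : ℕ} (hT : T.Valid Δ J) {p : Pos} {m : Md} {p₀ : Pos} {m₀ : Md}
    (h0 : s8cAnc T Δ h p m p₀ m₀) : T.E p₀ (h - Δ) m₀ ⊆ T.E p (h - Δ) m := by
  obtain ⟨ha, hm₀, -, -, hpre⟩ := h0
  intro a haE
  rw [s8c_mem_E] at haE ⊢
  refine ⟨hT.lst_mono p₀ p ha haE.1, ?_⟩
  exact (hT.pre_eqv p (h - Δ)).trans ((hT.pre_eqv p (h - Δ)).symm hpre)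
    (hT.pre_pers p₀ p (h - Δ) m₀ a ha hm₀ haE.1 haE.2)

theorem s8c_anc_E_big {Δ J h : ℕ} (hT : T.Valid Δ J) {p : Pos} {m : Md} (hm : m ∈ T.lst p) {p₀ : Pos}
    {m₀ : Md} (h0 : s8cAnc T Δ h p m p₀ m₀) :
    ((T.E p (h - Δ) m).card : ℝ) < 1.1 * ((T.E p₀ (h - Δ) m₀).card : ℝ) := by
  obtain ⟨-, hm₀, -, htyp, -⟩ := h0
  have h2 : s8cLog (T.E p₀ (h - Δ) m₀).card = s8cLog (T.E p (h - Δ) m).card :=
    congrArg Prod.snd htyp
  exact s8c_log_eq (Finset.card_pos.2 ⟨m₀, s8c_self_mem_E hT _ hm₀⟩)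
    (Finset.card_pos.2 ⟨m, s8c_self_mem_E hT _ hm⟩) h2

theorem s8c_anc_common {Δ J h : ℕ} (hT : T.Valid Δ J) {p : Pos} {m : Md} (hm : m ∈ T.lst p)
    {p₀ p₁ : Pos} {m₀ m₁ : Md} (h0 : s8cAnc T Δ h p m p₀ m₀) (h1 : s8cAnc T Δ h p m p₁ m₁) :
    ∃ a, a ∈ T.E p₀ (h - Δ) m₀ ∧ a ∈ T.E p₁ (h - Δ) m₁ := by
  have b0 := s8c_anc_E_big hT hm h0
  have b1 := s8c_anc_E_big hT hm h1
  have hlt : (T.E p (h - Δ) m).card < (T.E p₀ (h - Δ) m₀).card + (T.E p₁ (h - Δ) m₁).card := by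
    have c0 : (0 : ℝ) ≤ ((T.E p₀ (h - Δ) m₀).card : ℝ) := Nat.cast_nonneg _
    have c1 : (0 : ℝ) ≤ ((T.E p₁ (h - Δ) m₁).card : ℝ) := Nat.cast_nonneg _
    have : ((T.E p (h - Δ) m).card : ℝ) <
        ((T.E p₀ (h - Δ) m₀).card : ℝ) + ((T.E p₁ (h - Δ) m₁).card : ℝ) := by linarith
    exact_mod_cast this
  obtain ⟨a, ha⟩ := Finset.inter_nonempty_of_card_lt_card_add_card (s8c_anc_E_sub hT h0)
    (s8c_anc_E_sub hT h1) hlt
  rw [Finset.mem_inter] at ha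
  exact ⟨a, ha.1, ha.2⟩

theorem s8c_min_unique {Δ J h : ℕ} (hT : T.Valid Δ J) {p : Pos} {m : Md} (hm : m ∈ T.lst p)
    {p₀ p₁ : Pos} {m₀ m₁ : Md} (h0 : s8cIsMin T Δ h p m p₀ m₀) (h1 : s8cIsMin T Δ h p m p₁ m₁) :
    T.E p₀ (h - Δ) m₀ = T.E p₁ (h - Δ) m₁ := by
  have t01 := h0.2 _ _ h1.1
  have t10 := h1.2 _ _ h0.1
  have ha : T.anc p₀ p₁ := hT.anc_tree p₀ p₁ p h0.1.1 h1.1.1 t01
  have e : p₀ = p₁ := hT.anc_eq p₀ p₁ ha (le_antisymm t01 t10)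
  subst e
  obtain ⟨a, ha0, ha1⟩ := s8c_anc_common hT hm h0.1 h1.1
  rw [s8c_mem_E] at ha0 ha1
  exact s8c_E_congr hT ((hT.pre_eqv p₀ (h - Δ)).trans ha0.2 ((hT.pre_eqv p₀ (h - Δ)).symm ha1.2))

/-- the earliest predecessor -/
def s8cEst (T : S8cTower Pos Md Pr) (Δ h : ℕ) (p : Pos) (m : Md) : Finset Md :=
  if hne : ∃ p₀ m₀, s8cIsMin T Δ h p m p₀ m₀ then T.E hne.choose (h - Δ) hne.choose_spec.choose else ∅

theorem s8c_est_eq {Δ J h : ℕ} (hT : T.Valid Δ J) {p : Pos} {m : Md} (hm : m ∈ T.lst p)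
    {p₁ : Pos} {m₁ : Md} (h1 : s8cIsMin T Δ h p m p₁ m₁) : s8cEst T Δ h p m = T.E p₁ (h - Δ) m₁ := by
  have hne : ∃ p₀ m₀, s8cIsMin T Δ h p m p₀ m₀ := ⟨p₁, m₁, h1⟩
  unfold s8cEst
  rw [dif_pos hne]
  exact s8c_min_unique hT hm hne.choose_spec.choose_spec h1

/-- a fixed choice function -/
def s8cCh {α : Type*} (s : Finset α) (d : α) : α := if hs : s.Nonempty then hs.choose else d

theorem s8c_ch_mem {α : Type*} {s : Finset α} (hs : s.Nonempty) (d : α) : s8cCh s d ∈ s := by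
  unfold s8cCh
  rw [dif_pos hs]
  exact hs.choose_spec

theorem s8c_ch_eq {α : Type*} {s : Finset α} (hs : s.Nonempty) (d d' : α) : s8cCh s d = s8cCh s d' := by
  unfold s8cCh
  rw [dif_pos hs, dif_pos hs]

/-- **Lemma 8.10** (hereditary representatives, combinatorial part).  A successful component is given by one of its
good modes `m`.  The representative lies in the predecessor, and two good modes of the same type at comparable
positions that are CURRENT-related at the later position have the same representative.  (Contrapositive: distinct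
representatives ⇒ no cross pair of the two components is equal or adjacent in the later CURRENT graph.) -/
theorem hereditary {Δ J : ℕ} (hT : T.Valid Δ J) (h : ℕ) (hJ : h ≤ J) :
    ∃ rep : Pos → Md → Md,
      (∀ p m, m ∈ T.lst p → T.Good Δ p h m → rep p m ∈ T.E p (h - Δ) m) ∧
      ∀ p p' m m', T.anc p p' → m ∈ T.lst p → m' ∈ T.lst p' → T.Good Δ p h m → T.Good Δ p' h m' →
        T.typ Δ p h m = T.typ Δ p' h m' → T.cur p' h m m' → rep p m = rep p' m' := by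
  have hself : ∀ p m, m ∈ T.lst p → T.Good Δ p h m → s8cAnc T Δ h p m p m := fun p m hm hg =>
    ⟨hT.anc_refl p, hm, hg, rfl, (hT.pre_eqv p (h - Δ)).refl m⟩
  refine ⟨fun p m => s8cCh (s8cEst T Δ h p m) m, ?_, ?_⟩
  · intro p m hm hg
    obtain ⟨p₀, m₀, h0⟩ := s8c_exists_min (hself p m hm hg)
    have e := s8c_est_eq hT hm h0
    have hne : (s8cEst T Δ h p m).Nonempty := by
      rw [e]
      exact ⟨m₀, s8c_self_mem_E hT _ h0.1.2.1⟩
    have h1 := s8c_ch_mem hne m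
    rw [e] at h1
    have h2 := s8c_anc_E_sub hT h0.1 h1
    show s8cCh (s8cEst T Δ h p m) m ∈ T.E p (h - Δ) m
    rw [e]
    exact h2
  · intro p p' m m' ha hm hm' hg hg' htyp hc
    have hpre : T.pre p' (h - Δ) m m' :=
      pred_incl hT h hJ p p' m m' ha hm hm' hg hg' (congrArg Prod.fst htyp) hc
    have hincl : ∀ x y, s8cAnc T Δ h p m x y → s8cAnc T Δ h p' m' x y := by
      rintro x y ⟨a1, a2, a3, a4, a5⟩
      refine ⟨hT.anc_trans x p p' a1 ha, a2, a3, a4.trans htyp, ?_⟩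
      exact (hT.pre_eqv p' (h - Δ)).trans
        (hT.pre_pers p p' (h - Δ) y m ha (hT.lst_mono x p a1 a2) hm a5) hpre
    obtain ⟨p₀, m₀, h0⟩ := s8c_exists_min (hself p m hm hg)
    obtain ⟨p₁, m₁, h1⟩ := s8c_exists_min (hself p' m' hm' hg')
    have h0' := hincl _ _ h0.1
    have t10 : T.time p₁ ≤ T.time p₀ := h1.2 _ _ h0'
    have a10 : T.anc p₁ p₀ := hT.anc_tree p₁ p₀ p' h1.1.1 h0'.1 t10
    obtain ⟨a, ha1, ha0⟩ := s8c_anc_common hT hm' h1.1 h0'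
    rw [s8c_mem_E] at ha1 ha0
    have hm₁ := h1.1.2.1
    have hm₀ := h0.1.2.1
    have q1 : T.pre p₀ (h - Δ) m₁ a := hT.pre_pers p₁ p₀ (h - Δ) m₁ a a10 hm₁ ha1.1 ha1.2
    have q2 : T.pre p₀ (h - Δ) m₁ m₀ :=
      (hT.pre_eqv p₀ (h - Δ)).trans q1 ((hT.pre_eqv p₀ (h - Δ)).symm ha0.2)
    have q3 : T.pre p (h - Δ) m₁ m₀ :=
      hT.pre_pers p₀ p (h - Δ) m₁ m₀ h0.1.1 (hT.lst_mono p₁ p₀ a10 hm₁) hm₀ q2
    have hA1 : s8cAnc T Δ h p m p₁ m₁ :=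
      ⟨hT.anc_trans p₁ p₀ p a10 h0.1.1, hm₁, h1.1.2.2.1, h1.1.2.2.2.1.trans htyp.symm,
        (hT.pre_eqv p (h - Δ)).trans q3 h0.1.2.2.2.2⟩
    have hmin1 : s8cIsMin T Δ h p m p₁ m₁ := ⟨hA1, fun x y hxy => h1.2 x y (hincl x y hxy)⟩
    have e1 := s8c_est_eq hT hm hmin1
    have e2 := s8c_est_eq hT hm' h1
    show s8cCh (s8cEst T Δ h p m) m = s8cCh (s8cEst T Δ h p' m') m'
    rw [e1, e2]
    exact s8c_ch_eq ⟨m₁, s8c_self_mem_E hT _ hm₁⟩ m m'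

end S8cTower

end

end Claimed.Agent.R258
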